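import Vale.Agent.P066.QBinom

/-! The identity between colour sets behind the modular law. -/

open Finset Polynomial
open scoped Polynomial

namespace Vale.Agent.P066

variable {N : ℕ}

/-- The number of pairs `x < y` with `x ∈ S` and `y ∈ T`. -/
def ascSets (S T : Finset (Fin N)) : ℕ := ∑ x ∈ S, (T.filter fun y => x < y).card

theorem ascSets_comm (S T : Finset (Fin N)) :
    ascSets S T = ∑ y ∈ T, (S.filter fun x => x < y).card := by
  simp only [ascSets, card_filter]
  exact sum_comm

theorem ascSets_union_right (S T T' : Finset (Fin N)) (h : Disjoint T T') :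
    ascSets S (T ∪ T') = ascSets S T + ascSets S T' := by
  rw [ascSets_comm, sum_union h, ← ascSets_comm, ← ascSets_comm]

theorem ascSets_union_left (S S' T : Finset (Fin N)) (h : Disjoint S S') :
    ascSets (S ∪ S') T = ascSets S T + ascSets S' T := sum_union h

theorem choose_two_succ (m : ℕ) : (m + 1).choose 2 = m + m.choose 2 := by
  rw [Nat.choose_succ_succ', Nat.choose_one_right]

theorem ascSets_self (S : Finset (Fin N)) : ascSets S S = S.card.choose 2 := by
  induction S using Finset.induction_on_max with
  | empty => simp [ascSets]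
  | insert a s ha ih =>
    have has : a ∉ s := fun h => lt_irrefl a (ha a h)
    rw [ascSets, sum_insert has, card_insert_of_notMem has, choose_two_succ, ← ih]
    have h1 : (insert a s).filter (fun y => a < y) = ∅ := by
      rw [filter_eq_empty_iff]
      intro y hy
      rcases mem_insert.1 hy with rfl | hy
      · exact lt_irrefl _
      · exact (ha y hy).not_gt
    rw [h1, card_empty, zero_add, ascSets, card_eq_sum_ones, ← sum_add_distrib]
    refine sum_congr rfl fun x hx => ?_
    rw [filter_insert, if_pos (ha x hx), card_insert_of_notMem (fun h => has (mem_filter.1 h).1)]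
    ring

/-- Lattice path: the colours `≥ x` in `C` and the colours `< x` in `A`. -/
def height (A C : Finset (Fin N)) (x : ℕ) : ℕ :=
  (C.filter fun c : Fin N => x ≤ (c : ℕ)).card + (A.filter fun a : Fin N => (a : ℕ) < x).card

theorem height_zero (A C : Finset (Fin N)) : height A C 0 = C.card := by simp [height]

theorem height_top (A C : Finset (Fin N)) : height A C N = A.card := by
  simp [height, Fin.is_lt, not_le.2]

theorem card_filter_le_succ (S : Finset (Fin N)) {x : ℕ} (hx : x < N) :
    (S.filter fun c : Fin N => x ≤ (c : ℕ)).card =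
      (S.filter fun c : Fin N => x + 1 ≤ (c : ℕ)).card + (if (⟨x, hx⟩ : Fin N) ∈ S then 1 else 0) := by
  rw [card_filter, card_filter, ← sum_ite_eq' S (⟨x, hx⟩ : Fin N) (fun _ => 1), ← sum_add_distrib]
  refine sum_congr rfl fun c _ => ?_
  simp only [Fin.ext_iff]
  split_ifs <;> omega

theorem card_filter_lt_succ (S : Finset (Fin N)) {x : ℕ} (hx : x < N) :
    (S.filter fun c : Fin N => (c : ℕ) < x + 1).card =
      (S.filter fun c : Fin N => (c : ℕ) < x).card + (if (⟨x, hx⟩ : Fin N) ∈ S then 1 else 0) := by
  rw [card_filter, card_filter, ← sum_ite_eq' S (⟨x, hx⟩ : Fin N) (fun _ => 1), ← sum_add_distrib]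
  refine sum_congr rfl fun c _ => ?_
  simp only [Fin.ext_iff]
  split_ifs <;> omega

theorem height_succ (A C : Finset (Fin N)) {x : ℕ} (hx : x < N) :
    height A C (x + 1) + (if (⟨x, hx⟩ : Fin N) ∈ C then 1 else 0) =
      height A C x + (if (⟨x, hx⟩ : Fin N) ∈ A then 1 else 0) := by
  have h1 := card_filter_le_succ C hx
  have h2 := card_filter_lt_succ A hx
  simp only [height]
  omega

theorem card_prefix_succ (S : Finset (Fin N)) (g : Fin N → ℕ) {x : ℕ} (hx : x < N) (y : ℕ) :
    (S.filter fun c : Fin N => (c : ℕ) < x + 1 ∧ g c = y).card =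
      (S.filter fun c : Fin N => (c : ℕ) < x ∧ g c = y).card +
        (if (⟨x, hx⟩ : Fin N) ∈ S then (if g ⟨x, hx⟩ = y then 1 else 0) else 0) := by
  rw [card_filter, card_filter,
    ← sum_ite_eq' S (⟨x, hx⟩ : Fin N) (fun c => if g c = y then 1 else 0), ← sum_add_distrib]
  refine sum_congr rfl fun c _ => ?_
  simp only [Fin.ext_iff]
  split_ifs <;> omega

theorem height_balance (A C : Finset (Fin N)) (y : ℕ) : ∀ x ≤ N,
    ((C \ A).filter fun c : Fin N => (c : ℕ) < x ∧ height A C ((c : ℕ) + 1) = y).card +
        (if C.card ≤ y ∧ y < height A C x then 1 else 0) =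
      ((A \ C).filter fun a : Fin N => (a : ℕ) < x ∧ height A C (a : ℕ) = y).card +
        (if height A C x ≤ y ∧ y < C.card then 1 else 0) := by
  intro x
  induction x with
  | zero => intro _; simp [height_zero]
  | succ x ih =>
    intro hx
    have hx' : x < N := hx
    have hs := height_succ A C hx'
    rw [card_prefix_succ _ (fun c : Fin N => height A C ((c : ℕ) + 1)) hx' y,
      card_prefix_succ _ (fun a : Fin N => height A C (a : ℕ)) hx' y]
    simp only [mem_sdiff]
    have := ih hx'.le
    by_cases hA : (⟨x, hx'⟩ : Fin N) ∈ A <;> by_cases hC : (⟨x, hx'⟩ : Fin N) ∈ C <;>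
      simp only [hA, hC, if_true, if_false, not_true, not_false_iff, and_true, and_false,
        and_self] at hs ⊢ <;>
      split_ifs at this ⊢ <;> omega

/-- The path identity between the two multisets of heights. -/
theorem height_multiset (A C : Finset (Fin N)) (hk : A.card ≤ C.card) :
    (C \ A).1.map (fun c : Fin N => height A C ((c : ℕ) + 1)) =
      (A \ C).1.map (fun a : Fin N => height A C (a : ℕ)) +
        (Multiset.range (C.card - A.card)).map (fun i => A.card + i) := by
  ext y
  have h := height_balance A C y N le_rfl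
  simp only [height_top, Fin.is_lt, true_and] at h
  rw [Multiset.count_add, Multiset.count_map, Multiset.count_map, Multiset.count_map]
  have e1 : ∀ (S : Finset (Fin N)) (g : Fin N → ℕ),
      Multiset.card (S.1.filter fun c => y = g c) = (S.filter fun c => g c = y).card := by
    intro S g
    simp only [Finset.card_def, Finset.filter_val, eq_comm]
  have e2 : Multiset.card ((Multiset.range (C.card - A.card)).filter fun i => y = A.card + i) =
      if A.card ≤ y ∧ y < C.card then 1 else 0 := by
    have : Multiset.card ((Multiset.range (C.card - A.card)).filter fun i => y = A.card + i) =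
        ((Finset.range (C.card - A.card)).filter fun i => y = A.card + i).card := by
      rfl
    rw [this]
    split_ifs with hy
    · rw [Finset.card_eq_one]
      refine ⟨y - A.card, Finset.ext fun i => ?_⟩
      simp only [mem_filter, Finset.mem_range, mem_singleton]
      omega
    · rw [card_eq_zero, filter_eq_empty_iff]
      intro i hi
      rw [Finset.mem_range] at hi
      omega
  rw [e1, e1, e2]
  split_ifs at h ⊢ <;> omega

theorem height_left (A C : Finset (Fin N)) (a : Fin N) (ha : a ∉ C) :
    height A C (a : ℕ) = (C.filter fun c => a < c).card + (A.filter fun b => b < a).card := by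
  unfold height
  have h1 : (C.filter fun c : Fin N => (a : ℕ) ≤ (c : ℕ)) = C.filter fun c => a < c := by
    refine filter_congr fun c hc => ?_
    have : (c : ℕ) ≠ (a : ℕ) := fun h => ha (Fin.ext h ▸ hc)
    simp only [Fin.lt_def]
    omega
  rw [h1]
  rfl

theorem height_right (A C : Finset (Fin N)) (c : Fin N) (hc : c ∉ A) :
    height A C ((c : ℕ) + 1) = (C.filter fun d => c < d).card + (A.filter fun b => b < c).card := by
  unfold height
  have h1 : (A.filter fun d : Fin N => (d : ℕ) < (c : ℕ) + 1) = A.filter fun d => d < c := by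
    refine filter_congr fun d hd => ?_
    have : (d : ℕ) ≠ (c : ℕ) := fun h => hc (Fin.ext h ▸ hd)
    simp only [Fin.lt_def]
    omega
  rw [h1]
  rfl

theorem asc_split_right {A C : Finset (Fin N)} {C₁ : Finset (Fin N)} (h : C₁ ⊆ C \ A) :
    ascSets C₁ (C \ C₁) + ascSets A C₁ + C₁.card.choose 2 =
      ∑ c ∈ C₁, height A C ((c : ℕ) + 1) := by
  have hsub : C₁ ⊆ C := h.trans sdiff_subset
  have h1 : ascSets C₁ C = ascSets C₁ (C \ C₁) + ascSets C₁ C₁ := by
    rw [← ascSets_union_right _ _ _ sdiff_disjoint, sdiff_union_of_subset hsub]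
  rw [sum_congr rfl fun c hc => height_right A C c (mem_sdiff.1 (h hc)).2, sum_add_distrib,
    ← ascSets_comm, ← ascSets_self]
  simp only [ascSets] at h1 ⊢
  omega

theorem asc_split_left {A C : Finset (Fin N)} {A₂ : Finset (Fin N)} (h : A₂ ⊆ A \ C) :
    ascSets (A \ A₂) A₂ + ascSets A₂ C + A₂.card.choose 2 = ∑ a ∈ A₂, height A C (a : ℕ) := by
  have hsub : A₂ ⊆ A := h.trans sdiff_subset
  have h1 : ascSets A A₂ = ascSets (A \ A₂) A₂ + ascSets A₂ A₂ := by
    rw [← ascSets_union_left _ _ _ sdiff_disjoint, sdiff_union_of_subset hsub]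
  rw [sum_congr rfl fun a ha => height_left A C a (mem_sdiff.1 (h ha)).2, sum_add_distrib,
    ← ascSets_comm A A₂, ← ascSets_self, h1]
  simp only [ascSets]
  omega

/-- The colour-set identity. -/
theorem colour_identity (A C : Finset (Fin N)) (hk : A.card ≤ C.card) (s : ℕ) :
    ∑ C₁ ∈ (C \ A).powersetCard s, (X : ℕ[X]) ^ (ascSets C₁ (C \ C₁) + ascSets A C₁) =
      ∑ t ∈ range (s + 1), X ^ ((s - t) * (A.card - t)) * qbinom (C.card - A.card) (s - t) *
        ∑ A₂ ∈ (A \ C).powersetCard t, X ^ (ascSets (A \ A₂) A₂ + ascSets A₂ C) := by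
  refine mul_right_cancel₀ (pow_ne_zero (s.choose 2) (Polynomial.X_ne_zero (R := ℕ))) ?_
  rw [sum_mul, sum_mul]
  have hL : ∑ C₁ ∈ (C \ A).powersetCard s,
      (X : ℕ[X]) ^ (ascSets C₁ (C \ C₁) + ascSets A C₁) * X ^ s.choose 2 =
      (((C \ A).1.map fun c : Fin N => height A C ((c : ℕ) + 1)).map fun y => (X : ℕ[X]) ^ y).esymm s := by
    rw [Multiset.map_map, esymm_map_val]
    refine sum_congr rfl fun C₁ hC₁ => ?_
    obtain ⟨h1, h2⟩ := mem_powersetCard.1 hC₁
    rw [← pow_add]
    simp only [Function.comp_apply]
    rw [prod_pow_eq_pow_sum, ← h2, asc_split_right h1]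
  rw [hL, height_multiset A C hk, Multiset.map_add, esymm_add]
  refine sum_congr rfl fun t ht => ?_
  simp only [Multiset.map_map, Function.comp_def]
  rw [esymm_geom, esymm_map_val, sum_mul, mul_sum, sum_mul]
  refine sum_congr rfl fun A₂ hA₂ => ?_
  obtain ⟨h1, h2⟩ := mem_powersetCard.1 hA₂
  have htA : t ≤ A.card := h2 ▸ card_le_card (h1.trans sdiff_subset)
  have hts : t ≤ s := Nat.lt_succ_iff.1 (Finset.mem_range.1 ht)
  rw [prod_pow_eq_pow_sum, ← asc_split_left h1, h2]
  have key : (s - t) * (A.card - t) + s.choose 2 =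
      t.choose 2 + ((s - t) * A.card + (s - t).choose 2) := by
    obtain ⟨r, rfl⟩ := Nat.exists_eq_add_of_le hts
    obtain ⟨w, hw⟩ := Nat.exists_eq_add_of_le htA
    rw [hw, Nat.add_sub_cancel_left, Nat.add_sub_cancel_left]
    have hch : ∀ m, (t + m).choose 2 = t.choose 2 + m.choose 2 + t * m := by
      intro m
      induction m with
      | zero => simp
      | succ m ih => rw [← add_assoc, choose_two_succ, choose_two_succ, ih]; ring
    rw [hch]
    ring
  calc X ^ (ascSets (A \ A₂) A₂ + ascSets A₂ C + t.choose 2) *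
        (X ^ ((s - t) * A.card + (s - t).choose 2) * qbinom (C.card - A.card) (s - t))
      = qbinom (C.card - A.card) (s - t) * (X ^ (ascSets (A \ A₂) A₂ + ascSets A₂ C) *
          X ^ (t.choose 2 + ((s - t) * A.card + (s - t).choose 2))) := by ring
    _ = _ := by rw [← key]; ring

end Vale.Agent.P066
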