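import Vale.Agent.P066.Sorted
import Vale.Agent.P066.Identity

/-! Segments of vertices on which a colouring decreases. -/

noncomputable section

open Finset

namespace Vale.Agent.P066

variable {n N : ℕ}

/-- The vertices `a, …, a + m - 1`. -/
def seg (n a m : ℕ) : Finset (Fin n) := univ.filter fun x => a ≤ (x : ℕ) ∧ (x : ℕ) < a + m

theorem mem_seg {a m : ℕ} {x : Fin n} : x ∈ seg n a m ↔ a ≤ (x : ℕ) ∧ (x : ℕ) < a + m := by
  simp [seg]

theorem card_seg {a m : ℕ} (h : a + m ≤ n) : (seg n a m).card = m := by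
  have : (seg n a m).map Fin.valEmbedding = Finset.Ico a (a + m) := by
    ext x
    simp only [Finset.mem_map, mem_seg, Fin.valEmbedding_apply, Finset.mem_Ico]
    exact ⟨fun ⟨u, hu, e⟩ => e ▸ hu, fun hx => ⟨⟨x, by omega⟩, hx, rfl⟩⟩
  rw [← card_map (Fin.valEmbedding), this, Nat.card_Ico]
  omega

theorem seg_add (a m₁ m₂ : ℕ) : seg n a (m₁ + m₂) = seg n a m₁ ∪ seg n (a + m₁) m₂ := by
  ext x
  simp only [mem_union, mem_seg]
  omega

theorem seg_disjoint (a m₁ m₂ : ℕ) : Disjoint (seg n a m₁) (seg n (a + m₁) m₂) := by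
  rw [disjoint_left]
  intro x h1 h2
  simp only [mem_seg] at h1 h2
  omega

/-- The colouring decreases on the set. -/
def DescOn (f : Fin n → Fin N) (S : Finset (Fin n)) : Prop :=
  ∀ x ∈ S, ∀ y ∈ S, x < y → f y < f x

theorem DescOn.injOn {f : Fin n → Fin N} {S : Finset (Fin n)} (h : DescOn f S) :
    Set.InjOn f S := by
  intro x hx y hy e
  rcases lt_trichotomy x y with hxy | hxy | hxy
  · exact absurd e (h x hx y hy hxy).ne'
  · exact hxy
  · exact absurd e (h y hy x hx hxy).ne

theorem descOn_of_decr {L : Finset ℕ} {f : Fin n → Fin N} (hf : Decr L f) {a m : ℕ}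
    (hsub : Finset.Ico a (a + m - 1) ⊆ L) : DescOn f (seg n a m) := by
  intro x hx y hy hxy
  rw [mem_seg] at hx hy
  exact decr_lt hf y hxy fun z h1 h2 => hsub (Finset.mem_Ico.2 ⟨by omega, by omega⟩)

/-- A decreasing colouring of a segment is determined by its image. -/
theorem DescOn.eq_of_image {f g : Fin n → Fin N} {S : Finset (Fin n)} (hf : DescOn f S)
    (hg : DescOn g S) (he : S.image f = S.image g) : ∀ x ∈ S, f x = g x := by
  have key : ∀ (e : Fin n → Fin N), DescOn e S → ∀ x ∈ S,
      ((S.image e).filter fun c => e x < c).card = (S.filter fun y => y < x).card := by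
    intro e hde x hx
    rw [filter_image, card_image_of_injOn (hde.injOn.mono (coe_subset.2 (filter_subset _ _)))]
    refine congrArg Finset.card (filter_congr fun y hy => ?_)
    refine ⟨fun hlt => ?_, fun hlt => hde y hy x hx hlt⟩
    rcases lt_trichotomy y x with h | h | h
    · exact h
    · exact absurd hlt (by rw [h]; exact lt_irrefl _)
    · exact absurd (hde x hx y hy h) hlt.not_gt
  intro x hx
  have h1 := key f hf x hx
  have h2 := key g hg x hx
  rw [← he] at h2
  have hfm : f x ∈ S.image f := mem_image_of_mem f hx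
  have hgm : g x ∈ S.image f := he ▸ mem_image_of_mem g hx
  rcases lt_trichotomy (f x) (g x) with h | h | h
  · have : ((S.image f).filter fun c => g x < c).card < ((S.image f).filter fun c => f x < c).card :=
      card_lt_card ⟨fun c hc => mem_filter.2 ⟨(mem_filter.1 hc).1, h.trans (mem_filter.1 hc).2⟩,
        fun hc => lt_irrefl _ (mem_filter.1 (hc (mem_filter.2 ⟨hgm, h⟩))).2⟩
    omega
  · exact h
  · have : ((S.image f).filter fun c => f x < c).card < ((S.image f).filter fun c => g x < c).card :=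
      card_lt_card ⟨fun c hc => mem_filter.2 ⟨(mem_filter.1 hc).1, h.trans (mem_filter.1 hc).2⟩,
        fun hc => lt_irrefl _ (mem_filter.1 (hc (mem_filter.2 ⟨hfm, h⟩))).2⟩
    omega

theorem exists_desc {a m : ℕ} (h : a + m ≤ n) (base : Fin n → Fin N) (S : Finset (Fin N))
    (hS : S.card = m) :
    ∃ f : Fin n → Fin N, DescOn f (seg n a m) ∧ (seg n a m).image f = S ∧
      ∀ x ∉ seg n a m, f x = base x := by
  let f : Fin n → Fin N := fun x =>
    if hx : a ≤ (x : ℕ) ∧ (x : ℕ) < a + m then S.orderEmbOfFin hS ⟨a + m - 1 - x, by omega⟩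
    else base x
  have hval : ∀ x : Fin n, ∀ hx : a ≤ (x : ℕ) ∧ (x : ℕ) < a + m,
      f x = S.orderEmbOfFin hS ⟨a + m - 1 - x, by omega⟩ := fun x hx => dif_pos hx
  refine ⟨f, ?_, ?_, fun x hx => dif_neg (fun h' => hx (mem_seg.2 h'))⟩
  · intro x hx y hy hxy
    rw [hval x (mem_seg.1 hx), hval y (mem_seg.1 hy), OrderEmbedding.lt_iff_lt, Fin.lt_def]
    rw [Fin.lt_def] at hxy
    rw [mem_seg] at hx hy
    simp only
    omega
  · ext c
    rw [mem_image]
    constructor
    · rintro ⟨x, hx, rfl⟩
      rw [hval x (mem_seg.1 hx)]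
      exact orderEmbOfFin_mem _ _ _
    · intro hc
      obtain ⟨⟨i, hi⟩, rfl⟩ : ∃ i, S.orderEmbOfFin hS i = c := by
        rw [← Finset.mem_coe, ← S.range_orderEmbOfFin hS] at hc
        exact hc
      refine ⟨⟨a + m - 1 - i, by omega⟩, mem_seg.2 ⟨by simp only; omega, by simp only; omega⟩, ?_⟩
      rw [hval _ ⟨show a ≤ a + m - 1 - i by omega, show a + m - 1 - i < a + m by omega⟩]
      exact congrArg _ (Fin.ext (by simp only; omega))

/-- Pairs of vertices increasing in colour, for two sets with prescribed images. -/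
theorem sum_card_image {f : Fin n → Fin N} {S T : Finset (Fin n)} (hS : Set.InjOn f S)
    (hT : Set.InjOn f T) :
    ∑ x ∈ S, (T.filter fun y => f x < f y).card = ascSets (S.image f) (T.image f) := by
  rw [ascSets, sum_image hS]
  refine sum_congr rfl fun x _ => ?_
  rw [filter_image, card_image_of_injOn (hT.mono (coe_subset.2 (filter_subset _ _)))]

end Vale.Agent.P066
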