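import Vale.Agent.P066.Positive
import Vale.Agent.P066.Segment

/-! Disjoint unions of complete graphs satisfy the strengthened positivity statement. -/

noncomputable section

open Finset
open scoped Classical Polynomial

namespace Vale.Agent.P066

variable {n N : ℕ}

/-- Adjacent vertices have the same right end: the graph is a disjoint union of cliques. -/
def IsCliques (h : Fin n → ℕ) : Prop :=
  ∀ i j : Fin n, i ≤ j → (j : ℕ) < h i → h i = h j

theorem IsCliques.adj_iff {h : Fin n → ℕ} (hh : IsHess n h) (hc : IsCliques h) {i j : Fin n}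
    (hij : i ≤ j) : (j : ℕ) < h i ↔ h i = h j :=
  ⟨hc i j hij, fun e => e ▸ (hh.2 j).1⟩

theorem IsCliques.twin {h : Fin n → ℕ} (hh : IsHess n h) (hc : IsCliques h) {i j : Fin n}
    (e : h i = h j) : Twin h i j :=
  ⟨e, fun a ha => by
    rw [hc.adj_iff hh (le_of_lt (lt_of_lt_of_le ha (min_le_left _ _))),
      hc.adj_iff hh (le_of_lt (lt_of_lt_of_le ha (min_le_right _ _))), e]⟩

/-- The clique with right end `b`. -/
def blk (h : Fin n → ℕ) (b : ℕ) : Finset (Fin n) := univ.filter fun x => h x = b

theorem mem_blk {h : Fin n → ℕ} {b : ℕ} {x : Fin n} : x ∈ blk h b ↔ h x = b := by simp [blk]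

/-- The decreasing colourings of every clique are exactly the admissible colourings. -/
theorem cliques_mem_colourings {h : Fin n → ℕ} (hh : IsHess n h) (hc : IsCliques h)
    {f : Fin n → Fin N} :
    f ∈ colourings N h (allLinks h) ↔ ∀ b, DescOn f (blk h b) := by
  rw [mem_colourings]
  constructor
  · intro hf b x hx y hy hxy
    rw [mem_blk] at hx hy
    refine decr_lt hf.2 y hxy fun z h1 h2 => mem_allLinks.2 ⟨by omega, hc.twin hh ?_⟩
    have a1 := hh.1 (show x ≤ (⟨z, by omega⟩ : Fin n) from Fin.le_def.2 h1)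
    have a2 := hh.1 (show (⟨z, by omega⟩ : Fin n) ≤ ⟨z + 1, by omega⟩ from Fin.le_def.2 (by simp))
    have a3 := hh.1 (show (⟨z + 1, by omega⟩ : Fin n) ≤ y from Fin.le_def.2 (by simp only; omega))
    omega
  · refine fun hf => ⟨fun i j hij hj => ?_, fun i j hij hi => ?_⟩
    · exact (hf (h i) i (mem_blk.2 rfl) j (mem_blk.2 (hc i j hij.le hj).symm) hij).ne'
    · refine hf (h i) i (mem_blk.2 rfl) j (mem_blk.2 ?_) (Fin.lt_def.2 (by omega))
      exact ((allLinks_isLinks h).twin hij hi).1.symm

theorem cliques_asc {h : Fin n → ℕ} (hc : IsCliques h) {f : Fin n → Fin N}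
    (hf : ∀ b, DescOn f (blk h b)) : asc h f = 0 := by
  rw [asc, card_eq_zero, filter_eq_empty_iff]
  rintro ⟨i, j⟩ - ⟨hij, hj, hlt⟩
  exact lt_irrefl _
    (hlt.trans (hf (h i) i (mem_blk.2 rfl) j (mem_blk.2 (hc i j hij.le hj).symm) hij))

theorem card_image_blk {h : Fin n → ℕ} {f : Fin n → Fin N} (hf : ∀ b, DescOn f (blk h b))
    (b : ℕ) : ((blk h b).image f).card = (blk h b).card :=
  card_image_of_injOn (hf b).injOn

/-- Colour sets for the cliques determine a colouring. -/
theorem exists_of_sets (h : Fin n → ℕ) (S : ℕ → Finset (Fin N))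
    (hS : ∀ x, (S (h x)).card = (blk h (h x)).card) :
    ∃ f : Fin n → Fin N, (∀ b, DescOn f (blk h b)) ∧ ∀ x, (blk h (h x)).image f = S (h x) := by
  let g : ∀ b, (S b).card = (blk h b).card → ↥(blk h b) → Fin N := fun b e x =>
    (S b).orderEmbOfFin e (Fin.rev (((blk h b).orderIsoOfFin rfl).symm x))
  let f : Fin n → Fin N := fun x => g (h x) (hS x) ⟨x, mem_blk.2 rfl⟩
  have key : ∀ b (e : (S b).card = (blk h b).card) x (hx : x ∈ blk h b), f x = g b e ⟨x, hx⟩ := by
    intro b e x hx
    obtain rfl := mem_blk.1 hx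
    rfl
  have hd : ∀ b, DescOn f (blk h b) := by
    intro b x hx y hy hxy
    obtain rfl := mem_blk.1 hx
    rw [key _ (hS x) x hx, key _ (hS x) y hy]
    simp only [g, OrderEmbedding.lt_iff_lt, Fin.rev_lt_rev, OrderIso.lt_iff_lt, Subtype.mk_lt_mk]
    exact hxy
  refine ⟨f, hd, fun x => eq_of_subset_of_card_le (fun c hc => ?_) ?_⟩
  · obtain ⟨y, hy, rfl⟩ := mem_image.1 hc
    rw [key _ (hS x) y hy]
    exact orderEmbOfFin_mem _ _ _
  · rw [card_image_blk hd, hS x]

theorem cliques_chiL {h : Fin n → ℕ} (hh : IsHess n h) (hc : IsCliques h) :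
    chiL N h (allLinks h) =
      ∏ b ∈ univ.image h, MvPolynomial.esymm (Fin N) ℤ[X] (blk h b).card := by
  simp only [MvPolynomial.esymm]
  rw [prod_sum, chiL]
  set B := univ.image h with hB
  have hmem : ∀ x, h x ∈ B := fun x => mem_image_of_mem h (mem_univ x)
  refine sum_bij' (fun f _ b _ => (blk h b).image f)
    (fun p hp => (exists_of_sets h (fun b => if hb : b ∈ B then p b hb else ∅) fun x => by
      rw [dif_pos (hmem x)]
      exact (mem_powersetCard.1 (mem_pi.1 hp _ (hmem x))).2).choose) ?_ ?_ ?_ ?_ ?_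
  · intro f hf
    exact mem_pi.2 fun b _ => mem_powersetCard.2
      ⟨subset_univ _, card_image_blk ((cliques_mem_colourings hh hc).1 hf) b⟩
  · intro p hp
    exact (cliques_mem_colourings hh hc).2 (Exists.choose_spec (p := fun f : Fin n → Fin N =>
      (∀ b, DescOn f (blk h b)) ∧ ∀ x, _) _).1
  · intro f hf
    have hd := (cliques_mem_colourings hh hc).1 hf
    generalize_proofs pf
    obtain ⟨hg, him⟩ := pf.choose_spec
    funext x
    refine (hg (h x)).eq_of_image (hd (h x)) ?_ x (mem_blk.2 rfl)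
    rw [him x, dif_pos (hmem x)]
  · intro p hp
    generalize_proofs pf
    obtain ⟨-, him⟩ := pf.choose_spec
    funext b hb
    obtain ⟨x, -, rfl⟩ := mem_image.1 hb
    rw [him x, dif_pos]
  · intro f hf
    have hd := (cliques_mem_colourings hh hc).1 hf
    rw [wt, cliques_asc hc hd, pow_zero, map_one, one_mul,
      ← prod_fiberwise_of_maps_to (fun x _ => hmem x), ← prod_attach B]
    refine prod_congr rfl fun b _ => ?_
    rw [prod_image (hd b.1).injOn]
    rfl

/-- The base case. -/
theorem IsCliques.sPos {h : Fin n → ℕ} (hh : IsHess n h) (hc : IsCliques h) : SPos h := by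
  let μ : n.Partition :=
    { parts := (univ.image h).val.map fun b => (blk h b).card
      parts_pos := by
        intro k hk
        obtain ⟨b, hb, rfl⟩ := Multiset.mem_map.1 hk
        obtain ⟨x, -, rfl⟩ := mem_image.1 (Finset.mem_def.2 hb)
        exact card_pos.2 ⟨x, mem_blk.2 rfl⟩
      parts_sum := by
        refine (card_eq_sum_card_image h univ).symm.trans ?_
        simp }
  refine ⟨fun l => if l = μ then 1 else 0, fun N => ?_⟩
  rw [cliques_chiL hh hc, sum_eq_single μ (fun l _ hl => by simp [hl])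
    (fun hμ => absurd (mem_univ μ) hμ)]
  simp only [↓reduceIte, map_one, one_mul, elemProd]
  rw [show μ.parts = (univ.image h).val.map fun b => (blk h b).card from rfl, Multiset.map_map]
  rfl

end Vale.Agent.P066
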