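import Mathlib

/-!
Chromatic quasisymmetric functions of natural unit interval graphs.

Vertices are `0, …, n-1`. The function `h` gives for each vertex `i` the exclusive upper end of
its right neighbourhood: `i < j` are adjacent iff `j < h i` (so `h i` is the problem's `h(i+1)`).
-/

noncomputable section

open Finset
open scoped Polynomial

namespace Vale.Agent.P066

/-- `h` is a natural unit interval order on `n` vertices. -/
def IsHess (n : ℕ) (h : Fin n → ℕ) : Prop :=
  Monotone h ∧ ∀ i : Fin n, (i : ℕ) < h i ∧ h i ≤ n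

/-- Proper colourings with colours `0, …, N-1`. -/
def IsProper {n N : ℕ} (h : Fin n → ℕ) (f : Fin n → Fin N) : Prop :=
  ∀ i j : Fin n, i < j → (j : ℕ) < h i → f i ≠ f j

/-- The number of edges whose larger endpoint has the larger colour. -/
def asc {n N : ℕ} (h : Fin n → ℕ) (f : Fin n → Fin N) : ℕ :=
  (univ.filter fun p : Fin n × Fin n => p.1 < p.2 ∧ (p.2 : ℕ) < h p.1 ∧ f p.1 < f p.2).card

open scoped Classical in
/-- The chromatic quasisymmetric function in the `N` variables `x_0, …, x_{N-1}`. -/
def chi (N : ℕ) {n : ℕ} (h : Fin n → ℕ) : MvPolynomial (Fin N) ℤ[X] :=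
  ∑ f : Fin n → Fin N,
    if IsProper h f then MvPolynomial.C (Polynomial.X ^ asc h f) * ∏ a, MvPolynomial.X (f a) else 0

/-- `e_λ` in `N` variables. -/
def elemProd (N : ℕ) {n : ℕ} (l : n.Partition) : MvPolynomial (Fin N) ℤ[X] :=
  (l.parts.map fun k => MvPolynomial.esymm (Fin N) ℤ[X] k).prod

/-- The Shareshian-Wachs positivity statement for one graph: one family of coefficients in
`ℕ[q]` expands the chromatic quasisymmetric function in every number of variables. -/
def EPositive {n : ℕ} (h : Fin n → ℕ) : Prop :=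
  ∃ c : n.Partition → ℕ[X], ∀ N : ℕ,
    chi N h = ∑ l, MvPolynomial.C ((c l).map (Nat.castRingHom ℤ)) * elemProd N l

/-- Twins: same right end and the same left neighbours. -/
def Twin {n : ℕ} (h : Fin n → ℕ) (i j : Fin n) : Prop :=
  h i = h j ∧ ∀ a : Fin n, a < min i j → ((i : ℕ) < h a ↔ (j : ℕ) < h a)

end Vale.Agent.P066
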