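import Vale.Agent.P066.Reducible

/-! A family of arbitrary independence number that reduces: triangle chains of length at most two. -/

noncomputable section

open Finset
open scoped Classical

namespace Vale.Agent.P066

variable {n : ℕ}

/-- All right neighbours of `a` have the right end of `a`. -/
def Term (h : Fin n → ℕ) (a : Fin n) : Prop :=
  ∀ b : Fin n, a ≤ b → (b : ℕ) < h a → h b = h a

/-- A vertex with two right neighbours, not both with the same right end as itself. -/
def Tri (h : Fin n → ℕ) (a : Fin n) : Prop := ¬ Term h a ∧ h a = (a : ℕ) + 3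

/-- Each vertex is terminal or has at most two right neighbours, and there are no three consecutive
non-terminal vertices with exactly two right neighbours. -/
def ShortChains (h : Fin n → ℕ) : Prop :=
  IsHess n h ∧ (∀ a, Term h a ∨ h a ≤ (a : ℕ) + 3) ∧
    ∀ a b c : Fin n, (b : ℕ) = a + 1 → (c : ℕ) = a + 2 → ¬ (Tri h a ∧ Tri h b ∧ Tri h c)

/-- `h` as a function on all naturals. -/
def ext0 (h : Fin n → ℕ) (x : ℕ) : ℕ := if hx : x < n then h ⟨x, hx⟩ else n

theorem ext0_val (h : Fin n → ℕ) (x : Fin n) : ext0 h x = h x := dif_pos x.isLt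

theorem ext0_mk (h : Fin n → ℕ) {x : ℕ} (hx : x < n) : ext0 h x = h ⟨x, hx⟩ := dif_pos hx

theorem ext0_mono {h : Fin n → ℕ} (hh : IsHess n h) {x y : ℕ} (hxy : x ≤ y) :
    ext0 h x ≤ ext0 h y := by
  unfold ext0
  split_ifs with hx hy
  · exact hh.1 (Fin.le_def.2 hxy)
  · exact (hh.2 _).2
  · omega
  · exact le_rfl

theorem ext0_gt {h : Fin n → ℕ} (hh : IsHess n h) {x : ℕ} (hx : x < n) :
    x < ext0 h x ∧ ext0 h x ≤ n := by
  rw [ext0_mk h hx]; exact hh.2 ⟨x, hx⟩

theorem Term.tail {h : Fin n → ℕ} {a b : Fin n} (ht : Term h a) (hab : a ≤ b)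
    (hb : (b : ℕ) < h a) : Term h b := fun c hc hcb =>
  (ht c (hab.trans hc) (by rw [ht b hab hb] at hcb; exact hcb)).trans (ht b hab hb).symm

theorem not_term {h : Fin n → ℕ} {a b : Fin n} (hab : a ≤ b) (hb : (b : ℕ) < h a)
    (hne : h b ≠ h a) : ¬ Term h a := fun ht => hne (ht b hab hb)

theorem ShortChains.bound {h : Fin n → ℕ} (F : ShortChains h) {x q : Fin n} (hxq : x ≤ q)
    (hq : ¬ Term h q) : h x ≤ (q : ℕ) ∨ (h x ≤ (x : ℕ) + 3 ∧ ¬ Term h x) := by
  by_cases hx : Term h x
  · refine Or.inl (Nat.le_of_not_lt fun hlt => hq (hx.tail hxq hlt))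
  · exact Or.inr ⟨(F.2.1 x).resolve_left hx, hx⟩

/-- Changing the right ends of non-terminal vertices keeps the family under two checks. -/
theorem ShortChains.change {h g : Fin n → ℕ} (F : ShortChains h) (hg : IsHess n g)
    (U : Finset (Fin n)) (hsame : ∀ x ∉ U, g x = h x) (hnt : ∀ x ∈ U, ¬ Term h x)
    (hU : ∀ x ∈ U, Term g x ∨ g x ≤ (x : ℕ) + 3)
    (htri : ∀ x ∈ U, Tri g x → ∀ y : Fin n, (y : ℕ) + 1 = x ∨ (y : ℕ) = x + 2 → ¬ Tri g y) :
    ShortChains g := by
  have hterm : ∀ x ∉ U, Term h x → Term g x := by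
    intro x hx ht b hab hb
    rw [hsame x hx] at hb ⊢
    rw [hsame b fun hbU => hnt b hbU (ht.tail hab hb)]
    exact ht b hab hb
  refine ⟨hg, fun x => ?_, fun a b c hb hc ⟨ta, tb, tc⟩ => ?_⟩
  · by_cases hx : x ∈ U
    · exact hU x hx
    · exact (F.2.1 x).imp (hterm x hx) fun h1 => hsame x hx ▸ h1
  · by_cases ha : a ∈ U
    · exact htri a ha ta c (Or.inr hc) tc
    by_cases hb' : b ∈ U
    · exact htri b hb' tb a (Or.inl hb.symm) ta
    by_cases hc' : c ∈ U
    · exact htri c hc' tc b (Or.inl (by omega)) tb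
    have tr : ∀ x ∉ U, Tri g x → Tri h x := fun x hx t =>
      ⟨fun h1 => t.1 (hterm x hx h1), (hsame x hx).symm.trans t.2⟩
    exact F.2.2 a b c hb hc ⟨tr a ha ta, tr b hb' tb, tr c hc' tc⟩

/-- A sum of positions over the links. -/
def linkWeight (L : Finset ℕ) : ℕ := ∑ p ∈ L, (p + 1)

theorem linkWeight_le (h : Fin n → ℕ) : linkWeight (allLinks h) ≤ n * n := by
  refine (sum_le_sum_of_subset (fun p hp => (mem_filter.1 hp).1 : allLinks h ⊆ range n)).trans ?_
  refine (sum_le_card_nsmul _ _ n fun p hp => ?_).trans ?_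
  · rw [Finset.mem_range] at hp; omega
  · simp

/-- A move increases the weight of the links. -/
theorem Move.weight_lt {h : Fin n → ℕ} {i₀ u j k s : ℕ} (M : Move h i₀ u j k s) {t : ℕ}
    (ht : t ≤ u) :
    linkWeight (allLinks h) < linkWeight (allLinks (hgen h i₀ u j k (u - t) 0)) := by
  have F := M.frame
  have := F.hij; have := F.hjk; have := M.hs; have := M.hsk
  rw [← M.links_eq]
  set O := outTwins h i₀ u j k
  have h1 := (F.isLinks_gen (u₁ := u - t) (s₁ := 0) outTwins_out outTwins_links
    (Nat.sub_le u t) (Nat.zero_le k)).subset_allLinks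
  refine lt_of_lt_of_le ?_ (sum_le_sum_of_subset h1)
  set L₁ := linksGen O i₀ u j k u s
  set L₂ := linksGen O i₀ u j k (u - t) 0
  have hout : ∀ p ∈ O, (p + 1 < i₀ ∨ i₀ + u ≤ p) ∧ (p + 1 < j ∨ j + k ≤ p) :=
    fun p hp => (mem_filter.1 hp).2
  have hr : j + s - 1 ∉ L₁ := by
    rw [Frame.linksGen_mem]
    rintro (hp | hp | hp | hp | hp)
    · have := hout _ hp; omega
    all_goals omega
  have hsub : insert (j + s - 1) (L₁.filter fun p => ¬ (p + 1 = i₀ + (u - t) ∧ i₀ ≤ p)) ⊆ L₂ := by
    intro p hp
    rw [mem_insert, mem_filter, Frame.linksGen_mem] at hp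
    rw [Frame.linksGen_mem]
    rcases hp with hp | ⟨hp | hp | hp | hp | hp, hne⟩
    · omega
    · exact Or.inl hp
    all_goals omega
  refine lt_of_lt_of_le ?_ (sum_le_sum_of_subset hsub)
  rw [sum_insert (fun hc => hr (mem_filter.1 hc).1), linkWeight,
    ← sum_filter_add_sum_filter_not L₁ (fun p => p + 1 = i₀ + (u - t) ∧ i₀ ≤ p)]
  have hsmall : ∑ p ∈ L₁.filter (fun p => p + 1 = i₀ + (u - t) ∧ i₀ ≤ p), (p + 1) ≤
      i₀ + u := by
    refine (sum_le_sum_of_subset (fun p hp => ?_ : _ ⊆ ({i₀ + (u - t) - 1} : Finset ℕ))).trans ?_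
    · have := (mem_filter.1 hp).2
      rw [mem_singleton]; omega
    · rw [sum_singleton]
      have := F.hu
      omega
  omega

theorem not_link {h : Fin n → ℕ} {p : ℕ}
    (hd : ext0 h p ≠ ext0 h (p + 1) ∨ ∃ b < p, b < n ∧ p < ext0 h b ∧ ext0 h b ≤ p + 1) :
    p ∉ allLinks h := by
  intro hp
  obtain ⟨hp1, htw, hleft⟩ := mem_allLinks.1 hp
  rcases hd with hd | ⟨b, hbp, hb, hb1, hb2⟩
  · rw [ext0_mk h (show p < n by omega), ext0_mk h hp1] at hd
    exact hd htw
  · rw [ext0_mk h hb] at hb1 hb2
    have := (hleft ⟨b, hb⟩ (by rw [min_eq_left (Fin.le_def.2 (by simp only; omega)), Fin.lt_def]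
                               exact hbp)).1 hb1
    simp only at this
    omega

theorem last_not_link {h : Fin n → ℕ} {p : ℕ} (hp : n ≤ p + 1) : p ∉ allLinks h := fun hc => by
  obtain ⟨h1, -⟩ := mem_allLinks.1 hc
  omega

/-- The goal of a step: a move with all children in the family. -/
def HasMove (h : Fin n → ℕ) : Prop :=
  ∃ i₀ u j k s, Move h i₀ u j k s ∧ ∀ t ≤ u, t ≤ s → ShortChains (hgen h i₀ u j k (u - t) 0)

/-- A pair of vertices ending one step into a block. -/
theorem pair_step {h : Fin n → ℕ} (F : ShortChains h) : ∀ p k : ℕ, 2 ≤ k → p + 2 + k ≤ n →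
    ext0 h p = p + 3 → ext0 h (p + 1) = p + 3 → p + 3 < ext0 h (p + 2) →
    (∀ x, p + 2 ≤ x → x < p + 2 + k → ext0 h x = ext0 h (p + 2)) →
    p + 2 + k - 1 ∉ allLinks h →
    (ext0 h (p + 2) = p + 2 + k ∨ (k = 2 ∧ ext0 h (p + 2) = p + 5)) → HasMove h := by
  intro p
  induction p using Nat.strong_induction_on with
  | _ p ih =>
    intro k hk hn e0 e1 e2 eB hright hmode
    have hh := F.1
    have ntp : ∀ (q : ℕ) (hq : q < n), (q = p ∨ q = p + 1) → ¬ Term h ⟨q, hq⟩ := fun q hq hqp => by
      refine not_term (b := ⟨p + 2, by omega⟩) (Fin.le_def.2 (by simp only; omega)) ?_ ?_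
      · rw [← ext0_mk h hq]; rcases hqp with rfl | rfl <;> simp only <;> omega
      · rw [← ext0_mk h hq, ← ext0_mk h (show p + 2 < n by omega)]
        rcases hqp with rfl | rfl <;> omega
    have low : ∀ x, x < p → ext0 h x ≤ p ∨ (ext0 h x ≤ x + 3 ∧ ∀ hx : x < n, ¬ Term h ⟨x, hx⟩) := by
      intro x hx
      rw [ext0_mk h (show x < n by omega)]
      rcases F.bound (x := ⟨x, by omega⟩) (q := ⟨p, by omega⟩) (Fin.le_def.2 hx.le)
        (ntp p (by omega) (Or.inl rfl)) with h1 | h1
      · exact Or.inl h1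
      · exact Or.inr ⟨h1.1, fun _ => h1.2⟩
    by_cases hb : ∃ b < p, ext0 h b = p + 1
    · obtain ⟨b, hbp, hb⟩ := hb
      have hb3 : p ≤ b + 2 ∧ ∀ hx : b < n, ¬ Term h ⟨b, hx⟩ := by
        rcases low b hbp with h1 | h1
        · omega
        · exact ⟨by omega, h1.2⟩
      have hp1 : ext0 h (p - 1) = p + 1 := by
        have h1 := ext0_mono hh (show b ≤ p - 1 by omega)
        rcases low (p - 1) (by omega) with h2 | h2
        · omega
        by_contra hne
        have hb2 : b + 2 = p := by
          by_contra hb2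
          rw [show p - 1 = b by omega] at hne
          exact hne hb
        refine F.2.2 ⟨b, by omega⟩ ⟨p - 1, by omega⟩ ⟨p, by omega⟩ (by simp only; omega)
          (by simp only; omega) ⟨⟨hb3.2 _, ?_⟩, ⟨h2.2 _, ?_⟩, ⟨ntp p _ (Or.inl rfl), ?_⟩⟩
        · rw [← ext0_mk h (show b < n by omega)]; simp only; omega
        · rw [← ext0_mk h (show p - 1 < n by omega)]; simp only; omega
        · rw [← ext0_mk h (show p < n by omega)]; exact e0
      have hright' : p + 1 ∉ allLinks h := not_link (Or.inl (by
        rw [e1, show p + 1 + 1 = p + 2 by omega]; omega))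
      by_cases hb2 : 2 ≤ p ∧ ext0 h (p - 2) = p + 1
      · obtain ⟨q, rfl⟩ : ∃ q, p = q + 2 := ⟨p - 2, by omega⟩
        simp only [Nat.add_sub_cancel] at hb2
        rw [show q + 2 - 1 = q + 1 by omega] at hp1
        refine ih q (by omega) 2 le_rfl (by omega) (by omega) (by omega) (by omega) ?_
          (by rwa [show q + 2 + 2 - 1 = q + 2 + 1 by omega]) (Or.inr ⟨rfl, by omega⟩)
        intro x h1 h2
        rcases (show x = q + 2 ∨ x = q + 2 + 1 by omega) with rfl | rfl <;> omega
      · obtain ⟨q, rfl⟩ : ∃ q, p = q + 1 := ⟨p - 1, by omega⟩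
        simp only [Nat.add_sub_cancel] at hp1
        have lowq : ∀ x, x < q → ext0 h x ≤ q + 1 := by
          intro x hx
          rcases low x (by omega) with h1 | h1
          · exact h1
          by_contra hc
          have hxe : x + 1 = q := by omega
          have h2 := ext0_mono hh (show x ≤ q by omega)
          exact hb2 ⟨by omega, by rw [show q + 1 - 2 = x by omega]; omega⟩
        have hUend : ∀ x ∈ seg n q 1, h x = q + 1 + 1 := fun x hx => by
          rw [mem_seg] at hx; rw [← ext0_val h x, show (x : ℕ) = q by omega]; omega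
        have hFr : Frame h q 1 (q + 1) 2 := by
          refine ⟨hh, by omega, by omega, le_rfl, by omega, fun a _ => by omega, fun x hx => ?_,
            fun x hx => ?_, fun x hx y hy => ?_⟩
          · rw [mem_seg] at hx
            rw [← ext0_val h x]
            rcases Nat.lt_or_ge (x : ℕ) q with hxq | hxq
            · exact Or.inl (lowq _ hxq)
            · have := ext0_mono hh (show q + 1 ≤ (x : ℕ) by omega)
              omega
          · rw [hUend x hx]; omega
          · rw [mem_seg] at hx hy
            rw [← ext0_val h x, ← ext0_val h y]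
            rcases (show (x : ℕ) = q + 1 ∨ (x : ℕ) = q + 1 + 1 by omega) with ex | ex <;>
              rcases (show (y : ℕ) = q + 1 ∨ (y : ℕ) = q + 1 + 1 by omega) with ey | ey <;>
              rw [ex, ey] <;> omega
        refine ⟨q, 1, q + 1, 2, 1, ⟨hFr, by omega, by omega, by omega, hUend,
          not_link (Or.inl (by rw [show q + 1 - 1 = q by omega]; omega)), hright'⟩,
          fun t _ _ => ?_⟩
        refine F.change (hFr.hgen_hess (Nat.zero_le _)) (seg n q 1)
          (fun x hx => hgen_outside hx) (fun x hx => ?_) (fun x hx => Or.inr ?_) fun x hx htx y hy => ?_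
        · refine not_term (b := ⟨q + 1, by omega⟩) (Fin.le_def.2 ?_) ?_ ?_
          · rw [mem_seg] at hx; simp only; omega
          · rw [hUend x hx]; simp only; omega
          · rw [hUend x hx, ← ext0_mk h (show q + 1 < n by omega)]; omega
        · rw [mem_seg] at hx
          unfold hgen; rw [if_pos (mem_seg.2 hx)]; split_ifs <;> omega
        · intro hty
          rw [mem_seg] at hx
          have h1 := hty.2
          rw [hgen_outside (by rw [mem_seg]; omega), ← ext0_val h y] at h1
          rcases hy with hy | hy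
          · exact hb2 ⟨by omega, by rw [show q + 1 - 2 = (y : ℕ) by omega]; omega⟩
          · rw [show (y : ℕ) = q + 1 + 1 by omega] at h1; omega
    push Not at hb
    have hUend : ∀ x ∈ seg n p 2, h x = p + 2 + 1 := fun x hx => by
      rw [mem_seg] at hx; rw [← ext0_val h x]
      rcases (show (x : ℕ) = p ∨ (x : ℕ) = p + 1 by omega) with ex | ex <;> rw [ex] <;> omega
    have hFr : Frame h p 2 (p + 2) k := by
      refine ⟨hh, by omega, by omega, le_rfl, hn, fun a ha => ?_, fun x hx => ?_, fun x hx => ?_,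
        fun x hx y hy => ?_⟩
      · have := hb a ha; rw [ext0_val] at this; omega
      · rw [mem_seg] at hx
        rw [← ext0_val h x]
        rcases Nat.lt_or_ge (x : ℕ) p with hxp | hxp
        · rcases low _ hxp with h1 | h1 <;> omega
        · have := ext0_mono hh (show p + 2 ≤ (x : ℕ) by omega)
          rcases hmode with hm | ⟨hm1, hm2⟩ <;> omega
      · rw [hUend x hx]; omega
      · rw [mem_seg] at hx hy
        rw [← ext0_val h x, ← ext0_val h y, eB _ hx.1 hx.2, eB _ hy.1 hy.2]
    refine ⟨p, 2, p + 2, k, 1, ⟨hFr, by omega, by omega, hk, hUend,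
      not_link (Or.inl (by
        rw [show p + 2 - 1 = p + 1 by omega, show p + 1 + 1 = p + 2 by omega]; omega)), hright⟩, fun t _ ht1 => ?_⟩
    refine F.change (hFr.hgen_hess (Nat.zero_le _)) (seg n p 2) (fun x hx => hgen_outside hx)
      (fun x hx => ntp x x.isLt (by rw [mem_seg] at hx; omega)) (fun x hx => ?_)
      fun x hx htx y hy => ?_
    · have hx' := mem_seg.1 hx
      by_cases hlow : (x : ℕ) < p + (2 - t)
      · right; unfold hgen; rw [if_pos hx, if_pos hlow]; omega
      rcases hmode with hm | ⟨hm1, hm2⟩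
      · left
        intro b hab hbx
        rw [Fin.le_def] at hab
        have e : hgen h p 2 (p + 2) k (2 - t) 0 x = p + 2 + k := by
          unfold hgen; rw [if_pos hx, if_neg hlow]
        rw [e] at hbx ⊢
        unfold hgen
        split_ifs with hb1 hb2
        · omega
        · rfl
        · rw [mem_seg] at hb1
          rw [← ext0_val h b, eB _ (by omega) hbx, hm]
      · right; unfold hgen; rw [if_pos hx, if_neg hlow]; omega
    · intro hty
      have hx' := mem_seg.1 hx
      have h1 := htx.2
      have h2 := hty.2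
      unfold hgen at h1 h2
      rw [if_pos hx] at h1
      simp only [mem_seg] at h2
      rw [← ext0_val h y] at h2
      split_ifs at h1 h2 <;> rcases hy with hy | hy <;> try omega
      rw [show (y : ℕ) = p + 3 by omega] at h2
      rw [eB (p + 3) (by omega) (by omega)] at h2
      omega

theorem ShortChains.hasMove {h : Fin n → ℕ} (F : ShortChains h) (hnc : ¬ IsCliques h) :
    HasMove h := by
  have hh := F.1
  have hne : (univ.filter fun a : Fin n => ¬ Term h a).Nonempty := by
    by_contra hc
    refine hnc fun i j hij hj => ?_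
    have : Term h i := by
      by_contra ht
      exact hc ⟨i, mem_filter.2 ⟨mem_univ _, ht⟩⟩
    exact (this j hij hj).symm
  obtain ⟨⟨a, ha⟩, ham, hamax⟩ := exists_max_image _ (fun a : Fin n => (a : ℕ)) hne
  have hnt := (mem_filter.1 ham).2
  have hterm : ∀ x (hx : x < n), a < x → Term h ⟨x, hx⟩ := fun x hx hax => by
    by_contra ht
    have := hamax ⟨x, hx⟩ (mem_filter.2 ⟨mem_univ _, ht⟩)
    simp only at this
    omega
  have ha3 : ext0 h a ≤ a + 3 := by
    rw [ext0_mk h ha]; exact (F.2.1 _).resolve_left hnt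
  have ha2 : a + 2 ≤ ext0 h a := by
    by_contra hc
    refine hnt fun b hab hb => ?_
    rw [← ext0_mk h ha] at hb
    rw [Fin.le_def] at hab
    simp only at hab
    rw [show b = (⟨a, ha⟩ : Fin n) from Fin.ext (by simp only; omega)]
  have haN := (ext0_gt hh ha).2
  have heB : ∀ x, a + 1 ≤ x → x < ext0 h (a + 1) → ext0 h x = ext0 h (a + 1) := fun x h1 h2 => by
    have hxn : x < n := lt_of_lt_of_le h2 (ext0_gt hh (show a + 1 < n by omega)).2
    rw [ext0_mk h (show a + 1 < n by omega)] at h2 ⊢
    rw [ext0_mk h hxn]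
    exact hterm (a + 1) _ (by omega) ⟨x, hxn⟩ (Fin.le_def.2 h1) h2
  set e := ext0 h (a + 1) with he
  have hen : e ≤ n := (ext0_gt hh (show a + 1 < n by omega)).2
  have hae : ext0 h a < e := by
    refine lt_of_le_of_ne (ext0_mono hh (by omega)) fun hc => hnt fun b hab hb => ?_
    rw [Fin.le_def] at hab
    simp only at hab
    rcases eq_or_lt_of_le hab with hab | hab
    · rw [show b = (⟨a, ha⟩ : Fin n) from Fin.ext (by simp only; omega)]
    · rw [← ext0_mk h ha] at hb ⊢
      rw [← ext0_val h b, heB _ hab (by omega), hc]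
  have hright : e - 1 ∉ allLinks h := by
    rcases eq_or_lt_of_le hen with h1 | h1
    · exact last_not_link (by omega)
    · refine not_link (Or.inl ?_)
      rw [heB (e - 1) (by omega) (by omega), show e - 1 + 1 = e by omega]
      have := (ext0_gt hh h1).1
      omega
  have low : ∀ x, x < a → ext0 h x ≤ a ∨ ext0 h x ≤ x + 3 := by
    intro x hx
    rw [ext0_mk h (show x < n by omega)]
    exact (F.bound (x := ⟨x, by omega⟩) (q := ⟨a, ha⟩) (Fin.le_def.2 hx.le) hnt).imp_right And.left
  by_cases hcase : (0 < a → ext0 h (a - 1) ≤ a + 1) ∨ ext0 h a = a + 3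
  swap
  · push Not at hcase
    obtain ⟨⟨ha0, h1⟩, h2⟩ := hcase
    obtain ⟨p, rfl⟩ : ∃ p, a = p + 1 := ⟨a - 1, by omega⟩
    simp only [Nat.add_sub_cancel] at h1
    have := low p (by omega)
    have := congrArg (ext0 h) (show p + 1 + 1 = p + 2 by omega)
    refine pair_step F p (e - (p + 2)) (by omega) (by omega) (by omega) (by omega)
      (by rw [show p + 2 = p + 1 + 1 by omega, ← he]; omega) (fun x h3 h4 => ?_)
      (by rwa [show p + 2 + (e - (p + 2)) - 1 = e - 1 by omega])
      (Or.inl (by rw [show p + 2 = p + 1 + 1 by omega, ← he]; omega))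
    rw [show p + 2 = p + 1 + 1 by omega, ← he]
    exact heB x (by omega) (by omega)
  obtain ⟨j, hj1, hj2, hjlow, hleft⟩ : ∃ j, a + 1 ≤ j ∧ j < ext0 h a ∧
      (∀ x, x < a → ext0 h x ≤ j) ∧ j - 1 ∉ allLinks h := by
    by_cases hA : 0 < a → ext0 h (a - 1) ≤ a + 1
    · refine ⟨a + 1, le_rfl, by omega, fun x hx => ?_, not_link (Or.inl ?_)⟩
      · have := ext0_mono hh (show x ≤ a - 1 by omega)
        have := hA (by omega)
        omega
      · rw [Nat.add_sub_cancel, ← he]; omega
    · obtain ⟨ha0, h1⟩ := by push Not at hA; exact hA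
      have h3 := hcase.resolve_left hA
      have := low (a - 1) (by omega)
      refine ⟨a + 2, by omega, by omega, fun x hx => ?_,
        not_link (Or.inr ⟨a - 1, by omega, by omega, by omega, by omega⟩)⟩
      have := ext0_mono hh (show x ≤ a - 1 by omega)
      omega
  have hUend : ∀ x ∈ seg n a 1, h x = j + (ext0 h a - j) := fun x hx => by
    rw [mem_seg] at hx
    rw [← ext0_val h x, show (x : ℕ) = a by omega]
    omega
  have hFr : Frame h a 1 j (e - j) := by
    refine ⟨hh, by omega, by omega, hj1, by omega, fun b _ => by omega, fun x hx => ?_,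
      fun x hx => ?_, fun x hx y hy => ?_⟩
    · rw [mem_seg] at hx
      rw [← ext0_val h x]
      rcases Nat.lt_or_ge (x : ℕ) a with hxa | hxa
      · exact Or.inl (hjlow _ hxa)
      · have := ext0_mono hh (show a + 1 ≤ (x : ℕ) by omega)
        omega
    · rw [hUend x hx]; omega
    · rw [mem_seg] at hx hy
      rw [← ext0_val h x, ← ext0_val h y, heB _ (by omega) (by omega), heB _ (by omega) (by omega)]
  refine ⟨a, 1, j, e - j, ext0 h a - j, ⟨hFr, by omega, by omega, by omega, hUend, hleft,
    by rwa [show j + (e - j) - 1 = e - 1 by omega]⟩, fun t _ _ => ?_⟩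
  refine F.change (hFr.hgen_hess (Nat.zero_le _)) (seg n a 1) (fun x hx => hgen_outside hx)
    (fun x hx => ?_) (fun x hx => ?_) fun x hx htx y hy => ?_
  · rw [mem_seg] at hx
    rw [show x = (⟨a, ha⟩ : Fin n) from Fin.ext (by simp only; omega)]
    exact hnt
  · have hx' := mem_seg.1 hx
    by_cases hlow : (x : ℕ) < a + (1 - t)
    · right; unfold hgen; rw [if_pos hx, if_pos hlow]; omega
    · left
      intro b hab hbx
      rw [Fin.le_def] at hab
      have ee : hgen h a 1 j (e - j) (1 - t) 0 x = e := by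
        unfold hgen; rw [if_pos hx, if_neg hlow]; omega
      rw [ee] at hbx ⊢
      unfold hgen
      split_ifs with hb1 hb2
      · omega
      · omega
      · rw [mem_seg] at hb1
        rw [← ext0_val h b, heB _ (by omega) hbx]
  · exfalso
    have hx' := mem_seg.1 hx
    by_cases hlow : (x : ℕ) < a + (1 - t)
    · have h1 := htx.2
      unfold hgen at h1
      rw [if_pos hx, if_pos hlow] at h1
      omega
    · refine htx.1 fun b hab hbx => ?_
      rw [Fin.le_def] at hab
      have ee : hgen h a 1 j (e - j) (1 - t) 0 x = e := by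
        unfold hgen; rw [if_pos hx, if_neg hlow]; omega
      rw [ee] at hbx ⊢
      unfold hgen
      split_ifs with hb1 hb2
      · omega
      · omega
      · rw [mem_seg] at hb1
        rw [← ext0_val h b, heB _ (by omega) hbx]

/-- Every member of the family is reducible. -/
theorem ShortChains.reducible {h : Fin n → ℕ} (F : ShortChains h) : Reducible h := by
  suffices H : ∀ d (g : Fin n → ℕ), n * n - linkWeight (allLinks g) = d → ShortChains g →
      Reducible g from H _ h rfl F
  intro d
  induction d using Nat.strong_induction_on with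
  | _ d ih =>
    intro g hd Fg
    by_cases hc : IsCliques g
    · exact .cliques Fg.1 hc
    obtain ⟨i₀, u, j, k, s, M, hch⟩ := Fg.hasMove hc
    refine .move M fun t htu hts _ => ?_
    have h1 := M.weight_lt htu
    have h2 := linkWeight_le (hgen g i₀ u j k (u - t) 0)
    exact ih _ (by omega) _ rfl (hch t htu hts)

theorem ShortChains.ePositive {h : Fin n → ℕ} (F : ShortChains h) : EPositive h :=
  F.reducible.ePositive

end Vale.Agent.P066
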