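import Vale.Agent.P066.Frame

/-! Colourings grouped by the colouring outside the two blocks and the colour sets of the blocks. -/

noncomputable section

open Finset
open scoped Classical Polynomial

namespace Vale.Agent.P066

variable {n N : ℕ}

theorem asc_eq_sum (h : Fin n → ℕ) (f : Fin n → Fin N) :
    asc h f = ∑ x : Fin n, ∑ y : Fin n,
      if x < y ∧ (y : ℕ) < h x ∧ f x < f y then 1 else 0 := by
  rw [asc, card_filter, Fintype.sum_prod_type]

theorem sum_ite_image {f : Fin n → Fin N} {S : Finset (Fin n)} (hS : Set.InjOn f S) (P : Prop)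
    (Q : Fin N → Prop) {e : Fin n → Prop} [DecidablePred e] [Decidable P]
    [DecidablePred Q] (he : ∀ y ∈ S, e y ↔ P ∧ Q (f y)) :
    (∑ y ∈ S, if e y then 1 else 0) = if P then ((S.image f).filter Q).card else 0 := by
  by_cases hP : P
  · rw [if_pos hP, filter_image, card_image_of_injOn (hS.mono (coe_subset.2 (filter_subset _ _))),
      card_filter]
    exact sum_congr rfl fun y hy => if_congr ((he y hy).trans (and_iff_right hP)) rfl rfl
  · rw [if_neg hP]
    exact sum_eq_zero fun y hy => if_neg fun h => hP ((he y hy).1 h).1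

theorem sum_pairs_image {f : Fin n → Fin N} {S T : Finset (Fin n)} (hS : Set.InjOn f S)
    (hT : Set.InjOn f T) {e : Fin n → Fin n → Prop} [∀ x y, Decidable (e x y)]
    (he : ∀ x ∈ S, ∀ y ∈ T, e x y ↔ f x < f y) :
    (∑ x ∈ S, ∑ y ∈ T, if e x y then 1 else 0) = ascSets (S.image f) (T.image f) := by
  rw [← sum_card_image hS hT]
  refine sum_congr rfl fun x hx => ?_
  rw [card_filter]
  exact sum_congr rfl fun y hy => if_congr (he x hx y hy) rfl rfl

theorem sum_pairs_desc {f : Fin n → Fin N} {S : Finset (Fin n)} (hS : DescOn f S)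
    {e : Fin n → Fin n → Prop} [∀ x y, Decidable (e x y)] (he : ∀ x ∈ S, ∀ y ∈ S, e x y → x < y ∧ f x < f y) :
    (∑ x ∈ S, ∑ y ∈ S, if e x y then 1 else 0) = 0 :=
  sum_eq_zero fun x hx => sum_eq_zero fun y hy => if_neg fun h =>
    absurd (hS x hx y hy (he x hx y hy h).1) (he x hx y hy h).2.not_gt

theorem prod_three {M : Type*} [CommMonoid M] {h : Fin n → ℕ} {i₀ u j k : ℕ}
    (F : Frame h i₀ u j k) (φ : Fin n → M) :
    ∏ x, φ x = (∏ o : ↥(outside n i₀ u j k), φ o) * (∏ x ∈ seg n i₀ u, φ x) *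
      ∏ x ∈ seg n j k, φ x :=
  sum_three (M := Additive M) F φ

/-- The monomial of a colouring of the outside and the two colour sets. -/
def outWt (h : Fin n → ℕ) (i₀ u j k : ℕ) (g : ↥(outside n i₀ u j k) → Fin N)
    (A C : Finset (Fin N)) : MvPolynomial (Fin N) ℤ[X] :=
  MvPolynomial.C (Polynomial.X ^ outAsc h i₀ u j k g A C) *
    ((∏ o, MvPolynomial.X (g o)) * (∏ c ∈ A, MvPolynomial.X c) * ∏ c ∈ C, MvPolynomial.X c)

/-- The ascents inside the two blocks: `A₂` colours the raised rows, `C₁` the first columns. -/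
def innerAsc (A C A₂ C₁ : Finset (Fin N)) : ℕ :=
  ascSets (A \ A₂) A₂ + ascSets C₁ (C \ C₁) + ascSets (A \ A₂) C₁ + ascSets A₂ C

/-- The sum over the ways to colour the two blocks with given colour sets. -/
def inner (A C : Finset (Fin N)) (u₂ s₁ : ℕ) : ℕ[X] :=
  ∑ A₂ ∈ A.powersetCard u₂, ∑ C₁ ∈ C.powersetCard s₁,
    if Disjoint (A \ A₂) C₁ ∧ Disjoint A₂ C then Polynomial.X ^ innerAsc A C A₂ C₁ else 0

variable {h : Fin n → ℕ} {i₀ u j k u₁ s₁ : ℕ}

theorem seg_split {a m m₁ : ℕ} (hm : m₁ ≤ m) :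
    seg n a m = seg n a m₁ ∪ seg n (a + m₁) (m - m₁) := by
  rw [← seg_add, Nat.add_sub_cancel' hm]

theorem injOn_seg_of_image {f : Fin n → Fin N} {a m : ℕ} (ham : a + m ≤ n) {S : Finset (Fin N)}
    (he : (seg n a m).image f = S) (hS : S.card = m) : Set.InjOn f (seg n a m) :=
  card_image_iff.1 (by rw [he, hS, card_seg ham])

theorem image_first {f : Fin n → Fin N} {a m m₁ : ℕ} (hm : m₁ ≤ m)
    (hinj : Set.InjOn f (seg n a m)) :
    (seg n a m₁).image f = (seg n a m).image f \ (seg n (a + m₁) (m - m₁)).image f ∧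
      (seg n (a + m₁) (m - m₁)).image f = (seg n a m).image f \ (seg n a m₁).image f := by
  have hd : Disjoint ((seg n a m₁).image f) ((seg n (a + m₁) (m - m₁)).image f) := by
    rw [disjoint_left]
    intro c h1 h2
    obtain ⟨x, hx, rfl⟩ := mem_image.1 h1
    obtain ⟨y, hy, hxy⟩ := mem_image.1 h2
    have hsplit := seg_split (n := n) (a := a) hm
    have := hinj (hsplit ▸ mem_union_right _ hy) (hsplit ▸ mem_union_left _ hx) hxy
    exact disjoint_left.1 (seg_disjoint a m₁ (m - m₁)) hx (this ▸ hy)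
  rw [seg_split hm, image_union]
  exact ⟨(union_sdiff_cancel_right hd).symm, (union_sdiff_cancel_left hd).symm⟩

/-- Two decreasing halves of a clique. -/
theorem sum_clique_halves {f : Fin n → Fin N} {a m m₁ : ℕ} (hm : m₁ ≤ m)
    (h₁ : DescOn f (seg n a m₁)) (h₂ : DescOn f (seg n (a + m₁) (m - m₁)))
    {h' : Fin n → ℕ} (hadj : ∀ x ∈ seg n a m, ∀ y ∈ seg n a m, (y : ℕ) < h' x) :
    (∑ x ∈ seg n a m, ∑ y ∈ seg n a m, if x < y ∧ (y : ℕ) < h' x ∧ f x < f y then 1 else 0) =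
      ascSets ((seg n a m₁).image f) ((seg n (a + m₁) (m - m₁)).image f) := by
  rw [seg_split hm] at hadj ⊢
  have e1 := sum_pairs_desc h₁ (e := fun x y => x < y ∧ (y : ℕ) < h' x ∧ f x < f y)
    fun x _ y _ he => ⟨he.1, he.2.2⟩
  have e2 := sum_pairs_desc h₂ (e := fun x y => x < y ∧ (y : ℕ) < h' x ∧ f x < f y)
    fun x _ y _ he => ⟨he.1, he.2.2⟩
  have e3 : (∑ x ∈ seg n (a + m₁) (m - m₁), ∑ y ∈ seg n a m₁,
      if x < y ∧ (y : ℕ) < h' x ∧ f x < f y then 1 else 0) = 0 :=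
    sum_eq_zero fun x hx => sum_eq_zero fun y hy => if_neg fun he => by
      have := Fin.lt_def.1 he.1; rw [mem_seg] at hx hy; omega
  have e4 := sum_pairs_image h₁.injOn h₂.injOn
    (e := fun x y => x < y ∧ (y : ℕ) < h' x ∧ f x < f y) fun x hx y hy =>
      ⟨fun he => he.2.2, fun he => ⟨by rw [mem_seg] at hx hy; rw [Fin.lt_def]; omega,
        hadj x (mem_union_left _ hx) y (mem_union_right _ hy), he⟩⟩
  simp only [sum_union (seg_disjoint a m₁ (m - m₁)), sum_add_distrib, e3]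
  rw [e1, e2, e4]
  omega

theorem sum_rows_cols (F : Frame h i₀ u j k) (hu₁ : u₁ ≤ u) (hs₁ : s₁ ≤ k) {f : Fin n → Fin N}
    (hB : Set.InjOn f (seg n j k)) (hU₁ : DescOn f (seg n i₀ u₁))
    (hU₂ : DescOn f (seg n (i₀ + u₁) (u - u₁))) (hB₁ : DescOn f (seg n j s₁)) :
    (∑ x ∈ seg n i₀ u, ∑ y ∈ seg n j k,
      if x < y ∧ (y : ℕ) < hgen h i₀ u j k u₁ s₁ x ∧ f x < f y then 1 else 0) =
      ascSets ((seg n i₀ u₁).image f) ((seg n j s₁).image f) +
        ascSets ((seg n (i₀ + u₁) (u - u₁)).image f) ((seg n j k).image f) := by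
  have hsegU : seg n i₀ u = seg n i₀ u₁ ∪ seg n (i₀ + u₁) (u - u₁) := seg_split hu₁
  have hsegB : seg n j k = seg n j s₁ ∪ seg n (j + s₁) (k - s₁) := seg_split hs₁
  rw [hsegU, sum_union (seg_disjoint i₀ u₁ (u - u₁))]
  refine congrArg₂ (· + ·) ?_ ?_
  · refine Eq.trans (sum_congr rfl fun x hx => ?_)
      (sum_pairs_image hU₁.injOn hB₁.injOn (e := fun x y => x < y ∧
        (y : ℕ) < hgen h i₀ u j k u₁ s₁ x ∧ f x < f y) ?_)
    ·
      rw [hsegB, sum_union (seg_disjoint j s₁ (k - s₁))]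
      refine add_eq_left.2 (sum_eq_zero fun y hy => if_neg fun he => ?_)
      obtain ⟨-, h2⟩ := F.adj_UB (u₁ := u₁) (s₁ := s₁) (hsegU ▸ mem_union_left _ hx)
        (hsegB ▸ mem_union_right _ hy)
      have := h2.1 he.2.1
      rw [mem_seg] at hx hy
      omega
    · intro x hx y hy
      obtain ⟨h1, h2⟩ := F.adj_UB (u₁ := u₁) (s₁ := s₁) (hsegU ▸ mem_union_left _ hx)
        (hsegB ▸ mem_union_left _ hy)
      exact ⟨fun he => he.2.2, fun he => ⟨h1, h2.2 (Or.inr (mem_seg.1 hy).2), he⟩⟩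
  · refine sum_pairs_image hU₂.injOn hB (e := fun x y => x < y ∧
      (y : ℕ) < hgen h i₀ u j k u₁ s₁ x ∧ f x < f y) fun x hx y hy => ?_
    obtain ⟨h1, h2⟩ := F.adj_UB (u₁ := u₁) (s₁ := s₁) (hsegU ▸ mem_union_right _ hx) hy
    exact ⟨fun he => he.2.2, fun he => ⟨h1, h2.2 (Or.inl (mem_seg.1 hx).1), he⟩⟩

theorem sum_with_outside (F : Frame h i₀ u j k) (hs₁ : s₁ ≤ k) {f : Fin n → Fin N}
    (hU : Set.InjOn f (seg n i₀ u)) (hB : Set.InjOn f (seg n j k))
    (o : ↥(outside n i₀ u j k)) :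
    let E : Fin n → Fin n → Prop := fun x y =>
      x < y ∧ (y : ℕ) < hgen h i₀ u j k u₁ s₁ x ∧ f x < f y
    (∑ o' : ↥(outside n i₀ u j k), if E o o' then 1 else 0) =
      (univ.filter fun o' : ↥(outside n i₀ u j k) =>
        (o : Fin n) < o' ∧ ((o' : Fin n) : ℕ) < h o ∧ f o < f o').card ∧
    (∑ y ∈ seg n i₀ u, if E o y then 1 else 0) =
      (if ((o : Fin n) : ℕ) < i₀ ∧ i₀ < h o then
        (((seg n i₀ u).image f).filter fun c => f o < c).card else 0) ∧
    (∑ x ∈ seg n i₀ u, if E x o then 1 else 0) =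
      (if i₀ + u ≤ ((o : Fin n) : ℕ) ∧ ((o : Fin n) : ℕ) < j then
        (((seg n i₀ u).image f).filter fun c => c < f o).card else 0) ∧
    (∑ y ∈ seg n j k, if E o y then 1 else 0) =
      (if ((o : Fin n) : ℕ) < j ∧ j < h o then
        (((seg n j k).image f).filter fun c => f o < c).card else 0) ∧
    (∑ x ∈ seg n j k, if E x o then 1 else 0) =
      (if j + k ≤ ((o : Fin n) : ℕ) ∧ ((o : Fin n) : ℕ) < blockEnd h j then
        (((seg n j k).image f).filter fun c => c < f o).card else 0) := by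
  intro E
  refine ⟨?_, ?_, ?_, ?_, ?_⟩
  · rw [card_filter]
    exact sum_congr rfl fun o' _ =>
      if_congr (by simp only [E, hgen_outside (mem_outside.1 o.2).1]) rfl rfl
  · exact sum_ite_image hU _ _ (e := fun y => E o y) fun y hy => by
      rw [← (F.adj_out_U (u₁ := u₁) hs₁ o.2 hy).1]; simp only [E, and_assoc]
  · exact sum_ite_image hU _ _ (e := fun x => E x o) fun y hy => by
      rw [← (F.adj_out_U (u₁ := u₁) hs₁ o.2 hy).2]; simp only [E, and_assoc]
  · exact sum_ite_image hB _ _ (e := fun y => E o y) fun y hy => by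
      rw [← (F.adj_out_B (u₁ := u₁) (s₁ := s₁) o.2 hy).1]; simp only [E, and_assoc]
  · exact sum_ite_image hB _ _ (e := fun x => E x o) fun y hy => by
      rw [← (F.adj_out_B (u₁ := u₁) (s₁ := s₁) o.2 hy).2]; simp only [E, and_assoc]

theorem sum_nine (F : Frame h i₀ u j k) (e : Fin n → Fin n → ℕ) :
    ∑ x, ∑ y, e x y =
      ∑ o : ↥(outside n i₀ u j k), ((∑ o' : ↥(outside n i₀ u j k), e o o') +
        (∑ y ∈ seg n i₀ u, e o y) + (∑ x ∈ seg n i₀ u, e x o) + (∑ y ∈ seg n j k, e o y) +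
        ∑ x ∈ seg n j k, e x o) +
      ((∑ x ∈ seg n i₀ u, ∑ y ∈ seg n i₀ u, e x y) + (∑ x ∈ seg n i₀ u, ∑ y ∈ seg n j k, e x y) +
        (∑ x ∈ seg n j k, ∑ y ∈ seg n i₀ u, e x y) + ∑ x ∈ seg n j k, ∑ y ∈ seg n j k, e x y) := by
  rw [sum_three F]
  simp only [sum_three F (e _), sum_add_distrib]
  rw [sum_comm (s := seg n i₀ u) (t := univ), sum_comm (s := seg n j k) (t := univ)]
  ring

/-- The ascents of a colouring of the blocks' graph. -/
theorem asc_hgen (F : Frame h i₀ u j k) (hu₁ : u₁ ≤ u) (hs₁ : s₁ ≤ k) {f : Fin n → Fin N}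
    (hU : Set.InjOn f (seg n i₀ u)) (hB : Set.InjOn f (seg n j k))
    (hU₁ : DescOn f (seg n i₀ u₁)) (hU₂ : DescOn f (seg n (i₀ + u₁) (u - u₁)))
    (hB₁ : DescOn f (seg n j s₁)) (hB₂ : DescOn f (seg n (j + s₁) (k - s₁))) :
    asc (hgen h i₀ u j k u₁ s₁) f =
      outAsc h i₀ u j k (fun o => f o) ((seg n i₀ u).image f) ((seg n j k).image f) +
        innerAsc ((seg n i₀ u).image f) ((seg n j k).image f)
          ((seg n (i₀ + u₁) (u - u₁)).image f) ((seg n j s₁).image f) := by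
  obtain ⟨hA₁, -⟩ := image_first hu₁ hU
  obtain ⟨-, hC₂⟩ := image_first hs₁ hB
  have hUU := sum_clique_halves hu₁ hU₁ hU₂ (h' := hgen h i₀ u j k u₁ s₁)
    fun x hx y hy => F.adj_UU hx hy
  have hBB := sum_clique_halves hs₁ hB₁ hB₂ (h' := hgen h i₀ u j k u₁ s₁)
    fun x hx y hy => F.adj_BB hx hy
  have hUB := sum_rows_cols F hu₁ hs₁ hB hU₁ hU₂ hB₁
  have hBU : (∑ x ∈ seg n j k, ∑ y ∈ seg n i₀ u,
      if x < y ∧ (y : ℕ) < hgen h i₀ u j k u₁ s₁ x ∧ f x < f y then 1 else 0) = 0 :=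
    sum_eq_zero fun x hx => sum_eq_zero fun y hy => if_neg fun he => by
      have := Fin.lt_def.1 he.1; have := F.hij; rw [mem_seg] at hx hy; omega
  rw [asc_eq_sum, sum_nine F, hUU, hUB, hBU, hBB, outAsc, innerAsc, hA₁, hC₂]
  refine congrArg₂ (· + ·) (sum_congr rfl fun o _ => ?_) (by ring)
  obtain ⟨h1, h2, h3, h4, h5⟩ := sum_with_outside (u₁ := u₁) F hs₁ hU hB o
  rw [h1, h2, h3, h4, h5]

theorem Frame.linksGen_mem (Lout : Finset ℕ) {p : ℕ} :
    p ∈ linksGen Lout i₀ u j k u₁ s₁ ↔ p ∈ Lout ∨ (i₀ ≤ p ∧ p < i₀ + u₁ - 1) ∨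
      (i₀ + u₁ ≤ p ∧ p < i₀ + u - 1) ∨ (j ≤ p ∧ p < j + s₁ - 1) ∨
      (j + s₁ ≤ p ∧ p < j + k - 1) := by
  simp only [linksGen, mem_union, Finset.mem_Ico, or_assoc]

/-- Colourings of the graph of a move, grouped by their data outside the blocks. -/
theorem chiL_fibre (F : Frame h i₀ u j k) {Lout : Finset ℕ} (hLout : OutLinks n Lout i₀ u j k)
    (hu₁ : u₁ ≤ u) (hs₁ : s₁ ≤ k) :
    chiL N (hgen h i₀ u j k u₁ s₁) (linksGen Lout i₀ u j k u₁ s₁) =
      ∑ g : ↥(outside n i₀ u j k) → Fin N, ∑ A ∈ (univ : Finset (Fin N)).powersetCard u,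
        ∑ C ∈ (univ : Finset (Fin N)).powersetCard k,
          if OutOK h Lout i₀ u j k g A C then
            outWt h i₀ u j k g A C * scal N (inner A C (u - u₁) s₁) else 0 := by
  have := F.hij; have := F.hjk
  let P : (↥(outside n i₀ u j k) → Fin N) × Finset (Fin N) × Finset (Fin N) × Finset (Fin N) ×
      Finset (Fin N) → Prop := fun z =>
    (OutOK h Lout i₀ u j k z.1 z.2.1 z.2.2.1 ∧ z.2.1.card = u ∧ z.2.2.1.card = k) ∧
      (z.2.2.2.1 ⊆ z.2.1 ∧ z.2.2.2.1.card = u - u₁) ∧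
      (z.2.2.2.2 ⊆ z.2.2.1 ∧ z.2.2.2.2.card = s₁) ∧
      Disjoint (z.2.1 \ z.2.2.2.1) z.2.2.2.2 ∧ Disjoint z.2.2.2.1 z.2.2.1
  have hpow : ∀ (S : Finset (Fin N)) (m : ℕ),
      S.powersetCard m = univ.filter fun T => T ⊆ S ∧ T.card = m := fun S m => by
    ext T; simp [mem_powersetCard]
  have hR : (∑ z ∈ univ.filter P, outWt h i₀ u j k z.1 z.2.1 z.2.2.1 *
      scal N (Polynomial.X ^ innerAsc z.2.1 z.2.2.1 z.2.2.2.1 z.2.2.2.2)) =
      ∑ g : ↥(outside n i₀ u j k) → Fin N, ∑ A ∈ (univ : Finset (Fin N)).powersetCard u,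
        ∑ C ∈ (univ : Finset (Fin N)).powersetCard k,
          if OutOK h Lout i₀ u j k g A C then
            outWt h i₀ u j k g A C * scal N (inner A C (u - u₁) s₁) else 0 := by
    rw [sum_filter, Fintype.sum_prod_type]
    refine sum_congr rfl fun g _ => ?_
    rw [Fintype.sum_prod_type, hpow univ u, sum_filter]
    refine sum_congr rfl fun A _ => ?_
    rw [Fintype.sum_prod_type]
    by_cases hA : A.card = u
    swap
    · rw [if_neg (fun hc => hA hc.2)]
      exact sum_eq_zero fun C _ => sum_eq_zero fun z _ => if_neg fun hc => hA hc.1.2.1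
    rw [if_pos ⟨subset_univ _, hA⟩, hpow univ k, sum_filter]
    refine sum_congr rfl fun C _ => ?_
    by_cases hC : C.card = k ∧ OutOK h Lout i₀ u j k g A C
    swap
    · rw [sum_eq_zero fun z _ => if_neg fun hc => hC ⟨hc.1.2.2, hc.1.1⟩]
      by_cases h1 : C ⊆ univ ∧ C.card = k
      · rw [if_pos h1, if_neg fun h2 => hC ⟨h1.2, h2⟩]
      · rw [if_neg h1]
    rw [if_pos ⟨subset_univ _, hC.1⟩, if_pos hC.2, Fintype.sum_prod_type, inner, map_sum, mul_sum,
      hpow A, sum_filter]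
    refine sum_congr rfl fun A₂ _ => ?_
    by_cases h2 : A₂ ⊆ A ∧ A₂.card = u - u₁
    swap
    · rw [if_neg h2]
      exact sum_eq_zero fun z _ => if_neg fun hc => h2 hc.2.1
    rw [if_pos h2, map_sum, mul_sum, hpow C, sum_filter]
    refine sum_congr rfl fun C₁ _ => ?_
    simp only [hA, hC.1, hC.2, h2, true_and, and_true]
    by_cases h3 : C₁ ⊆ C ∧ C₁.card = s₁ <;> by_cases h4 : Disjoint (A \ A₂) C₁ ∧ Disjoint A₂ C <;>
      simp [h3, h4]
  rw [← hR, chiL]
  refine sum_bij (fun f _ => (fun o : ↥(outside n i₀ u j k) => f o, (seg n i₀ u).image f,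
    (seg n j k).image f, (seg n (i₀ + u₁) (u - u₁)).image f, (seg n j s₁).image f)) ?_ ?_ ?_ ?_
  · intro f hf
    obtain ⟨hp, hd⟩ := mem_colourings.1 hf
    have hneq : ∀ x y : Fin n, (x < y ∧ (y : ℕ) < hgen h i₀ u j k u₁ s₁ x) → f x ≠ f y :=
      fun x y hxy => hp x y hxy.1 hxy.2
    have hU : Set.InjOn f (seg n i₀ u) := fun x hx y hy e => by
      rcases lt_trichotomy x y with hl | hl | hl
      · exact absurd e (hneq x y ⟨hl, F.adj_UU hx hy⟩)
      · exact hl
      · exact absurd e.symm (hneq y x ⟨hl, F.adj_UU hy hx⟩)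
    have hB : Set.InjOn f (seg n j k) := fun x hx y hy e => by
      rcases lt_trichotomy x y with hl | hl | hl
      · exact absurd e (hneq x y ⟨hl, F.adj_BB hx hy⟩)
      · exact hl
      · exact absurd e.symm (hneq y x ⟨hl, F.adj_BB hy hx⟩)
    have hsU : ∀ x ∈ seg n (i₀ + u₁) (u - u₁), x ∈ seg n i₀ u := fun x hx =>
      seg_split (n := n) (a := i₀) hu₁ ▸ mem_union_right _ hx
    have hsU₁ : ∀ x ∈ seg n i₀ u₁, x ∈ seg n i₀ u := fun x hx =>
      seg_split (n := n) (a := i₀) hu₁ ▸ mem_union_left _ hx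
    have hsB : ∀ x ∈ seg n j s₁, x ∈ seg n j k := fun x hx =>
      seg_split (n := n) (a := j) hs₁ ▸ mem_union_left _ hx
    simp only [mem_filter, mem_univ, true_and, P]
    refine ⟨⟨⟨?_, ?_, ?_, ?_⟩, ?_, ?_⟩, ⟨image_subset_image hsU, ?_⟩, ⟨image_subset_image hsB, ?_⟩,
      ?_, ?_⟩
    · intro a b hab hb
      exact hneq _ _ ⟨hab, by rwa [hgen_outside (mem_outside.1 a.2).1]⟩
    · intro a b hab ha
      exact hd _ _ hab (Frame.linksGen_mem Lout |>.2 (Or.inl ha))
    · intro a ha hc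
      obtain ⟨y, hy, e⟩ := mem_image.1 hc
      obtain ⟨h1, h2⟩ := F.adj_out_U (u₁ := u₁) hs₁ a.2 hy
      rcases ha with ha | ha
      · exact hneq _ _ (h1.2 ha) e.symm
      · exact hneq _ _ (h2.2 ha) e
    · intro a ha hc
      obtain ⟨y, hy, e⟩ := mem_image.1 hc
      obtain ⟨h1, h2⟩ := F.adj_out_B (u₁ := u₁) (s₁ := s₁) a.2 hy
      rcases ha with ha | ha
      · exact hneq _ _ (h1.2 ha) e.symm
      · exact hneq _ _ (h2.2 ha) e
    · rw [card_image_of_injOn hU, card_seg (by omega)]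
    · rw [card_image_of_injOn hB, card_seg (by omega)]
    · rw [card_image_of_injOn (hU.mono (coe_subset.2 hsU)), card_seg (by omega)]
    · rw [card_image_of_injOn (hB.mono (coe_subset.2 hsB)), card_seg (by omega)]
    · rw [← (image_first hu₁ hU).1, disjoint_left]
      intro c hc1 hc2
      obtain ⟨x, hx, rfl⟩ := mem_image.1 hc1
      obtain ⟨y, hy, e⟩ := mem_image.1 hc2
      obtain ⟨h1, h2⟩ := F.adj_UB (u₁ := u₁) (s₁ := s₁) (hsU₁ x hx) (hsB y hy)
      exact hneq _ _ ⟨h1, h2.2 (Or.inr (mem_seg.1 hy).2)⟩ e.symm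
    · rw [disjoint_left]
      intro c hc1 hc2
      obtain ⟨x, hx, rfl⟩ := mem_image.1 hc1
      obtain ⟨y, hy, e⟩ := mem_image.1 hc2
      obtain ⟨h1, h2⟩ := F.adj_UB (u₁ := u₁) (s₁ := s₁) (hsU x hx) hy
      exact hneq _ _ ⟨h1, h2.2 (Or.inl (mem_seg.1 hx).1)⟩ e.symm
  · intro f hf g hg e
    simp only [Prod.mk.injEq] at e
    obtain ⟨e1, e2, e3, e4, e5⟩ := e
    obtain ⟨hfp, hfd⟩ := mem_colourings.1 hf
    obtain ⟨hgp, hgd⟩ := mem_colourings.1 hg
    have key : ∀ (a m : ℕ), Finset.Ico a (a + m - 1) ⊆ linksGen Lout i₀ u j k u₁ s₁ →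
        (seg n a m).image f = (seg n a m).image g → ∀ x ∈ seg n a m, f x = g x :=
      fun a m hsub he => (descOn_of_decr hfd hsub).eq_of_image (descOn_of_decr hgd hsub) he
    have injU : ∀ φ : Fin n → Fin N, IsProper (hgen h i₀ u j k u₁ s₁) φ →
        Set.InjOn φ (seg n i₀ u) ∧ Set.InjOn φ (seg n j k) := fun φ hφ =>
      ⟨fun x hx y hy e => by
        rcases lt_trichotomy x y with hl | hl | hl
        · exact absurd e (hφ x y hl (F.adj_UU hx hy))
        · exact hl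
        · exact absurd e.symm (hφ y x hl (F.adj_UU hy hx)),
      fun x hx y hy e => by
        rcases lt_trichotomy x y with hl | hl | hl
        · exact absurd e (hφ x y hl (F.adj_BB hx hy))
        · exact hl
        · exact absurd e.symm (hφ y x hl (F.adj_BB hy hx))⟩
    have eU₁ : (seg n i₀ u₁).image f = (seg n i₀ u₁).image g := by
      rw [(image_first hu₁ (injU f hfp).1).1, (image_first hu₁ (injU g hgp).1).1, e2, e4]
    have eB₂ : (seg n (j + s₁) (k - s₁)).image f = (seg n (j + s₁) (k - s₁)).image g := by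
      rw [(image_first hs₁ (injU f hfp).2).2, (image_first hs₁ (injU g hgp).2).2, e3, e5]
    funext x
    by_cases hxU : x ∈ seg n i₀ u
    · rw [seg_split hu₁, mem_union] at hxU
      rcases hxU with hx | hx
      · refine key i₀ u₁ (fun p hp => ?_) eU₁ x hx
        rw [Finset.mem_Ico] at hp; rw [Frame.linksGen_mem]; omega
      · refine key _ _ (fun p hp => ?_) e4 x hx
        rw [Finset.mem_Ico] at hp; rw [Frame.linksGen_mem]; omega
    by_cases hxB : x ∈ seg n j k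
    · rw [seg_split hs₁, mem_union] at hxB
      rcases hxB with hx | hx
      · refine key j s₁ (fun p hp => ?_) e5 x hx
        rw [Finset.mem_Ico] at hp; rw [Frame.linksGen_mem]; omega
      · refine key _ _ (fun p hp => ?_) eB₂ x hx
        rw [Finset.mem_Ico] at hp; rw [Frame.linksGen_mem]; omega
    exact congrFun e1 ⟨x, mem_outside.2 ⟨hxU, hxB⟩⟩
  · intro z hz
    obtain ⟨g, A, C, A₂, C₁⟩ := z
    simp only [mem_filter, mem_univ, true_and, P] at hz
    obtain ⟨⟨hok, hA, hC⟩, ⟨hA₂s, hA₂⟩, ⟨hC₁s, hC₁⟩, hd1, hd2⟩ := hz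
    obtain ⟨c₀, -⟩ := card_pos.1 (hA ▸ F.hu)
    let base : Fin n → Fin N := fun x =>
      if hx : x ∈ outside n i₀ u j k then g ⟨x, hx⟩ else c₀
    obtain ⟨f1, d1, i1, o1⟩ := exists_desc (n := n) (a := i₀) (m := u₁) (by omega) base (A \ A₂)
      (by rw [card_sdiff_of_subset hA₂s]; omega)
    obtain ⟨f2, d2, i2, o2⟩ := exists_desc (n := n) (a := i₀ + u₁) (m := u - u₁) (by omega) f1 A₂ hA₂
    obtain ⟨f3, d3, i3, o3⟩ := exists_desc (n := n) (a := j) (m := s₁) (by omega) f2 C₁ hC₁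
    obtain ⟨f, d4, i4, o4⟩ := exists_desc (n := n) (a := j + s₁) (m := k - s₁) (by omega) f3 (C \ C₁)
      (by rw [card_sdiff_of_subset hC₁s]; omega)
    have a1 : ∀ x ∈ seg n i₀ u₁, f x = f1 x := fun x hx => by
      rw [mem_seg] at hx
      rw [o4 x (by rw [mem_seg]; omega), o3 x (by rw [mem_seg]; omega),
        o2 x (by rw [mem_seg]; omega)]
    have a2 : ∀ x ∈ seg n (i₀ + u₁) (u - u₁), f x = f2 x := fun x hx => by
      rw [mem_seg] at hx
      rw [o4 x (by rw [mem_seg]; omega), o3 x (by rw [mem_seg]; omega)]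
    have a3 : ∀ x ∈ seg n j s₁, f x = f3 x := fun x hx => by
      rw [mem_seg] at hx
      rw [o4 x (by rw [mem_seg]; omega)]
    have aout : ∀ x : ↥(outside n i₀ u j k), f x = g x := fun x => by
      have hx := mem_outside'.1 x.2
      rw [o4 x (by rw [mem_seg]; omega), o3 x (by rw [mem_seg]; omega),
        o2 x (by rw [mem_seg]; omega), o1 x (by rw [mem_seg]; omega)]
      exact dif_pos x.2
    have D1 : DescOn f (seg n i₀ u₁) := fun x hx y hy hl => by
      rw [a1 x hx, a1 y hy]; exact d1 x hx y hy hl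
    have D2 : DescOn f (seg n (i₀ + u₁) (u - u₁)) := fun x hx y hy hl => by
      rw [a2 x hx, a2 y hy]; exact d2 x hx y hy hl
    have D3 : DescOn f (seg n j s₁) := fun x hx y hy hl => by
      rw [a3 x hx, a3 y hy]; exact d3 x hx y hy hl
    have I1 : (seg n i₀ u₁).image f = A \ A₂ := (image_congr a1).trans i1
    have I2 : (seg n (i₀ + u₁) (u - u₁)).image f = A₂ := (image_congr a2).trans i2
    have I3 : (seg n j s₁).image f = C₁ := (image_congr a3).trans i3
    have IU : (seg n i₀ u).image f = A := by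
      rw [seg_split hu₁, image_union, I1, I2, sdiff_union_of_subset hA₂s]
    have IB : (seg n j k).image f = C := by
      rw [seg_split hs₁, image_union, I3, i4, union_sdiff_of_subset hC₁s]
    have hU := injOn_seg_of_image (by omega) IU hA
    have hB := injOn_seg_of_image (by omega) IB hC
    refine ⟨f, mem_colourings.2 ⟨fun x y hxy hadj e => ?_, fun a b hab ha => ?_⟩, ?_⟩
    · by_cases hxo : x ∈ outside n i₀ u j k
      · by_cases hyo : y ∈ outside n i₀ u j k
        · rw [hgen_outside (mem_outside.1 hxo).1] at hadj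
          rw [aout ⟨x, hxo⟩, aout ⟨y, hyo⟩] at e
          exact hok.1 ⟨x, hxo⟩ ⟨y, hyo⟩ hxy hadj e
        rw [mem_outside] at hyo
        rw [aout ⟨x, hxo⟩] at e
        by_cases hyU : y ∈ seg n i₀ u
        · refine hok.2.2.1 ⟨x, hxo⟩ (Or.inl ((F.adj_out_U hs₁ hxo hyU).1.1 ⟨hxy, hadj⟩)) ?_
          rw [e, ← IU]; exact mem_image_of_mem f hyU
        · have hyB : y ∈ seg n j k := by by_contra hh; exact hyo ⟨hyU, hh⟩
          refine hok.2.2.2 ⟨x, hxo⟩ (Or.inl ((F.adj_out_B hxo hyB).1.1 ⟨hxy, hadj⟩)) ?_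
          rw [e, ← IB]; exact mem_image_of_mem f hyB
      rw [mem_outside] at hxo
      by_cases hxU : x ∈ seg n i₀ u
      · by_cases hyo : y ∈ outside n i₀ u j k
        · rw [aout ⟨y, hyo⟩] at e
          refine hok.2.2.1 ⟨y, hyo⟩ (Or.inr ((F.adj_out_U hs₁ hyo hxU).2.1 ⟨hxy, hadj⟩)) ?_
          rw [← e, ← IU]; exact mem_image_of_mem f hxU
        rw [mem_outside] at hyo
        by_cases hyU : y ∈ seg n i₀ u
        · exact hxy.ne (hU hxU hyU e)
        have hyB : y ∈ seg n j k := by by_contra hh; exact hyo ⟨hyU, hh⟩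
        have hfy : f y ∈ C := IB ▸ mem_image_of_mem f hyB
        rcases (F.adj_UB hxU hyB).2.1 hadj with hx2 | hy1
        · have : f x ∈ A₂ := I2 ▸ mem_image_of_mem f (mem_seg.2 ⟨hx2, by
            rw [mem_seg] at hxU; omega⟩)
          exact disjoint_left.1 hd2 this (e ▸ hfy)
        · have hy1' : f y ∈ C₁ := I3 ▸ mem_image_of_mem f (mem_seg.2 ⟨(mem_seg.1 hyB).1, hy1⟩)
          by_cases hfx : f x ∈ A₂
          · exact disjoint_left.1 hd2 hfx (e ▸ hfy)
          · exact disjoint_left.1 hd1 (mem_sdiff.2 ⟨IU ▸ mem_image_of_mem f hxU, hfx⟩) (e ▸ hy1')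
      have hxB : x ∈ seg n j k := by by_contra hh; exact hxo ⟨hxU, hh⟩
      by_cases hyo : y ∈ outside n i₀ u j k
      · rw [aout ⟨y, hyo⟩] at e
        refine hok.2.2.2 ⟨y, hyo⟩ (Or.inr ((F.adj_out_B hyo hxB).2.1 ⟨hxy, hadj⟩)) ?_
        rw [← e, ← IB]; exact mem_image_of_mem f hxB
      rw [mem_outside] at hyo
      by_cases hyU : y ∈ seg n i₀ u
      · rw [Fin.lt_def] at hxy; rw [mem_seg] at hxB hyU; omega
      have hyB : y ∈ seg n j k := by by_contra hh; exact hyo ⟨hyU, hh⟩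
      exact hxy.ne (hB hxB hyB e)
    · have hlt : a < b := Fin.lt_def.2 (by omega)
      rcases (Frame.linksGen_mem Lout).1 ha with hl | hl | hl | hl | hl
      · obtain ⟨-, l1, l2⟩ := hLout _ hl
        have hao : a ∈ outside n i₀ u j k := mem_outside'.2 (by omega)
        have hbo : b ∈ outside n i₀ u j k := mem_outside'.2 (by omega)
        rw [aout ⟨a, hao⟩, aout ⟨b, hbo⟩]
        exact hok.2.1 ⟨a, hao⟩ ⟨b, hbo⟩ hab hl
      · exact D1 a (mem_seg.2 (by omega)) b (mem_seg.2 (by omega)) hlt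
      · exact D2 a (mem_seg.2 (by omega)) b (mem_seg.2 (by omega)) hlt
      · exact D3 a (mem_seg.2 (by omega)) b (mem_seg.2 (by omega)) hlt
      · exact d4 a (mem_seg.2 (by omega)) b (mem_seg.2 (by omega)) hlt
    · simp only [IU, IB, I2, I3, Prod.mk.injEq, and_true]
      exact funext aout
  · intro f hf
    obtain ⟨hp, hd⟩ := mem_colourings.1 hf
    have hU : Set.InjOn f (seg n i₀ u) := fun x hx y hy e => by
      rcases lt_trichotomy x y with hl | hl | hl
      · exact absurd e (hp x y hl (F.adj_UU hx hy))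
      · exact hl
      · exact absurd e.symm (hp y x hl (F.adj_UU hy hx))
    have hB : Set.InjOn f (seg n j k) := fun x hx y hy e => by
      rcases lt_trichotomy x y with hl | hl | hl
      · exact absurd e (hp x y hl (F.adj_BB hx hy))
      · exact hl
      · exact absurd e.symm (hp y x hl (F.adj_BB hy hx))
    have hdesc : ∀ a m, (∀ p, a ≤ p → p < a + m - 1 → p ∈ linksGen Lout i₀ u j k u₁ s₁) →
        DescOn f (seg n a m) := fun a m hsub =>
      descOn_of_decr hd fun p hp => hsub p (Finset.mem_Ico.1 hp).1 (Finset.mem_Ico.1 hp).2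
    rw [wt, outWt, asc_hgen F hu₁ hs₁ hU hB
      (hdesc _ _ fun p a b => by rw [Frame.linksGen_mem]; omega)
      (hdesc _ _ fun p a b => by rw [Frame.linksGen_mem]; omega)
      (hdesc _ _ fun p a b => by rw [Frame.linksGen_mem]; omega)
      (hdesc _ _ fun p a b => by rw [Frame.linksGen_mem]; omega),
      scal_X_pow, prod_three F, prod_image hU, prod_image hB, pow_add, map_mul]
    ring

end Vale.Agent.P066
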