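import Vale.Agent.P066.Segment

/-! A block of twins and a column block: graphs and links of the modular law, and their ascents. -/

noncomputable section

open Finset
open scoped Classical

namespace Vale.Agent.P066

variable {n N : ℕ}

/-- A block `U = [i₀, i₀ + u)` of rows ending inside the column block `B = [j, j + k)`. -/
structure Frame (h : Fin n → ℕ) (i₀ u j k : ℕ) : Prop where
  hh : IsHess n h
  hu : 0 < u
  hk : 0 < k
  hij : i₀ + u ≤ j
  hjk : j + k ≤ n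
  hUtwin : ∀ a : Fin n, (a : ℕ) < i₀ → h a ≤ i₀ ∨ i₀ + u ≤ h a
  hoff : ∀ x : Fin n, x ∉ seg n i₀ u → h x ≤ j ∨ j + k ≤ h x
  hUrange : ∀ x ∈ seg n i₀ u, j < h x ∧ h x < j + k
  hBeq : ∀ x ∈ seg n j k, ∀ y ∈ seg n j k, h x = h y

/-- The common right end of the column block. -/
def blockEnd (h : Fin n → ℕ) (j : ℕ) : ℕ := if hj : j < n then h ⟨j, hj⟩ else 0

/-- The first `u₁` rows of `U` end at `j + s₁`, the other ones at `j + k`. -/
def hgen (h : Fin n → ℕ) (i₀ u j k u₁ s₁ : ℕ) : Fin n → ℕ := fun x =>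
  if x ∈ seg n i₀ u then (if (x : ℕ) < i₀ + u₁ then j + s₁ else j + k) else h x

/-- The links: those given outside, and those inside the four pieces. -/
def linksGen (Lout : Finset ℕ) (i₀ u j k u₁ s₁ : ℕ) : Finset ℕ :=
  Lout ∪ Finset.Ico i₀ (i₀ + u₁ - 1) ∪ Finset.Ico (i₀ + u₁) (i₀ + u - 1) ∪
    Finset.Ico j (j + s₁ - 1) ∪ Finset.Ico (j + s₁) (j + k - 1)

/-- Links among the vertices outside both blocks. -/
def OutLinks (n : ℕ) (Lout : Finset ℕ) (i₀ u j k : ℕ) : Prop :=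
  ∀ p ∈ Lout, p + 1 < n ∧ (p + 1 < i₀ ∨ i₀ + u ≤ p) ∧ (p + 1 < j ∨ j + k ≤ p)

/-- The vertices outside both blocks. -/
def outside (n i₀ u j k : ℕ) : Finset (Fin n) := (seg n i₀ u ∪ seg n j k)ᶜ

theorem mem_outside {i₀ u j k : ℕ} {x : Fin n} :
    x ∈ outside n i₀ u j k ↔ x ∉ seg n i₀ u ∧ x ∉ seg n j k := by
  simp [outside]

theorem mem_outside' {i₀ u j k : ℕ} {x : Fin n} : x ∈ outside n i₀ u j k ↔
    ((x : ℕ) < i₀ ∨ i₀ + u ≤ (x : ℕ)) ∧ ((x : ℕ) < j ∨ j + k ≤ (x : ℕ)) := by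
  simp only [mem_outside, mem_seg]
  omega

/-- An outside vertex sees the block `U`. -/
def AdjU (h : Fin n → ℕ) (i₀ u j : ℕ) (o : Fin n) : Prop :=
  ((o : ℕ) < i₀ ∧ i₀ < h o) ∨ (i₀ + u ≤ (o : ℕ) ∧ (o : ℕ) < j)

/-- An outside vertex sees the block `B`. -/
def AdjB (h : Fin n → ℕ) (j k : ℕ) (o : Fin n) : Prop :=
  ((o : ℕ) < j ∧ j < h o) ∨ (j + k ≤ (o : ℕ) ∧ (o : ℕ) < blockEnd h j)

/-- A colouring of the outside is proper and avoids the colours of the blocks it sees. -/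
def OutOK (h : Fin n → ℕ) (Lout : Finset ℕ) (i₀ u j k : ℕ)
    (g : ↥(outside n i₀ u j k) → Fin N) (A C : Finset (Fin N)) : Prop :=
  (∀ a b : ↥(outside n i₀ u j k), (a : Fin n) < b → ((b : Fin n) : ℕ) < h a → g a ≠ g b) ∧
  (∀ a b : ↥(outside n i₀ u j k), ((b : Fin n) : ℕ) = (a : Fin n) + 1 → ((a : Fin n) : ℕ) ∈ Lout →
    g b < g a) ∧
  (∀ a : ↥(outside n i₀ u j k), AdjU h i₀ u j a → g a ∉ A) ∧
  ∀ a : ↥(outside n i₀ u j k), AdjB h j k a → g a ∉ C

/-- The ascents along edges with an outside end. -/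
def outAsc (h : Fin n → ℕ) (i₀ u j k : ℕ) (g : ↥(outside n i₀ u j k) → Fin N)
    (A C : Finset (Fin N)) : ℕ :=
  ∑ o : ↥(outside n i₀ u j k),
    ((univ.filter fun o' : ↥(outside n i₀ u j k) =>
        (o : Fin n) < o' ∧ ((o' : Fin n) : ℕ) < h o ∧ g o < g o').card +
      (if ((o : Fin n) : ℕ) < i₀ ∧ i₀ < h o then (A.filter fun c => g o < c).card else 0) +
      (if i₀ + u ≤ ((o : Fin n) : ℕ) ∧ ((o : Fin n) : ℕ) < j then
        (A.filter fun c => c < g o).card else 0) +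
      (if ((o : Fin n) : ℕ) < j ∧ j < h o then (C.filter fun c => g o < c).card else 0) +
      (if j + k ≤ ((o : Fin n) : ℕ) ∧ ((o : Fin n) : ℕ) < blockEnd h j then
        (C.filter fun c => c < g o).card else 0))

variable {h : Fin n → ℕ} {i₀ u j k : ℕ}

theorem Frame.blockEnd_eq (F : Frame h i₀ u j k) {x : Fin n} (hx : x ∈ seg n j k) :
    h x = blockEnd h j := by
  have hj : j < n := by have := F.hjk; have := F.hk; omega
  rw [blockEnd, dif_pos hj]
  exact F.hBeq x hx _ (mem_seg.2 ⟨le_rfl, by simp only; have := F.hk; omega⟩)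

theorem Frame.blockEnd_ge (F : Frame h i₀ u j k) : j + k ≤ blockEnd h j := by
  have := F.hjk; have := F.hk
  let x : Fin n := ⟨j + k - 1, by omega⟩
  have hx : x ∈ seg n j k := mem_seg.2 ⟨by simp only [x]; omega, by simp only [x]; omega⟩
  have := (F.hh.2 x).1
  rw [F.blockEnd_eq hx] at this
  simp only [x] at this
  omega

theorem Frame.below (F : Frame h i₀ u j k) {x : Fin n} (hx : (x : ℕ) < i₀) : h x ≤ j := by
  have := F.hjk; have := F.hij; have := F.hu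
  let y : Fin n := ⟨i₀, by omega⟩
  have hy : y ∈ seg n i₀ u := mem_seg.2 ⟨le_rfl, by simp only [y]; omega⟩
  have h1 : h x ≤ h y := F.hh.1 (Fin.le_def.2 (by simp only [y]; omega))
  have h2 := (F.hUrange y hy).2
  have h3 := F.hoff x (fun hc => by rw [mem_seg] at hc; omega)
  omega

theorem Frame.above (F : Frame h i₀ u j k) {x : Fin n} (hx : i₀ + u ≤ (x : ℕ)) : j + k ≤ h x := by
  have := F.hjk; have := F.hij; have := F.hu
  let y : Fin n := ⟨i₀, by omega⟩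
  have hy : y ∈ seg n i₀ u := mem_seg.2 ⟨le_rfl, by simp only [y]; omega⟩
  have h1 : h y ≤ h x := F.hh.1 (Fin.le_def.2 (by simp only [y]; omega))
  have h2 := (F.hUrange y hy).1
  have h3 := F.hoff x (fun hc => by rw [mem_seg] at hc; omega)
  omega

theorem Frame.hgen_hess (F : Frame h i₀ u j k) {u₁ s₁ : ℕ} (hs₁ : s₁ ≤ k) :
    IsHess n (hgen h i₀ u j k u₁ s₁) := by
  have := F.hjk; have := F.hij
  refine ⟨fun x y hxy => ?_, fun x => ?_⟩
  · rw [Fin.le_def] at hxy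
    unfold hgen
    simp only [mem_seg]
    split_ifs <;>
      first
        | omega
        | exact F.hh.1 (Fin.le_def.2 hxy)
        | (have := F.above (x := y) (by omega); omega)
        | (have := F.below (x := x) (by omega); omega)
  · unfold hgen
    simp only [mem_seg]
    split_ifs <;> first | omega | exact F.hh.2 x

variable {u₁ s₁ : ℕ}

theorem hgen_outside {x : Fin n} (hx : x ∉ seg n i₀ u) : hgen h i₀ u j k u₁ s₁ x = h x :=
  if_neg hx

theorem Frame.adj_out_U (F : Frame h i₀ u j k) (hs₁ : s₁ ≤ k) {o y : Fin n}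
    (ho : o ∈ outside n i₀ u j k) (hy : y ∈ seg n i₀ u) :
    ((o < y ∧ (y : ℕ) < hgen h i₀ u j k u₁ s₁ o) ↔ ((o : ℕ) < i₀ ∧ i₀ < h o)) ∧
    ((y < o ∧ (o : ℕ) < hgen h i₀ u j k u₁ s₁ y) ↔ (i₀ + u ≤ (o : ℕ) ∧ (o : ℕ) < j)) := by
  have hoU := (mem_outside.1 ho).1
  rw [mem_outside'] at ho
  rw [hgen_outside hoU]
  have hy' := mem_seg.1 hy
  have := F.hij
  refine ⟨⟨fun hc => ?_, fun hc => ?_⟩, ?_⟩
  · rw [Fin.lt_def] at hc; omega
  · have := F.hUtwin o hc.1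
    rw [Fin.lt_def]; omega
  · unfold hgen
    rw [if_pos hy, Fin.lt_def]
    split_ifs <;> omega

theorem Frame.adj_out_B (F : Frame h i₀ u j k) {o y : Fin n}
    (ho : o ∈ outside n i₀ u j k) (hy : y ∈ seg n j k) :
    ((o < y ∧ (y : ℕ) < hgen h i₀ u j k u₁ s₁ o) ↔ ((o : ℕ) < j ∧ j < h o)) ∧
    ((y < o ∧ (o : ℕ) < hgen h i₀ u j k u₁ s₁ y) ↔ (j + k ≤ (o : ℕ) ∧ (o : ℕ) < blockEnd h j)) := by
  have hoU := (mem_outside.1 ho).1
  rw [mem_outside'] at ho
  have hy' := mem_seg.1 hy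
  have := F.hij
  have hyU : y ∉ seg n i₀ u := fun hc => by rw [mem_seg] at hc; omega
  rw [hgen_outside hoU, hgen_outside hyU, F.blockEnd_eq hy]
  refine ⟨⟨fun hc => ?_, fun hc => ?_⟩, ?_⟩
  · rw [Fin.lt_def] at hc; omega
  · have := F.hoff o hoU
    rw [Fin.lt_def]; omega
  · rw [Fin.lt_def]; omega

theorem Frame.adj_UU (F : Frame h i₀ u j k) {x y : Fin n} (hx : x ∈ seg n i₀ u)
    (hy : y ∈ seg n i₀ u) : (y : ℕ) < hgen h i₀ u j k u₁ s₁ x := by
  have := mem_seg.1 hy; have := F.hij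
  unfold hgen
  rw [if_pos hx]
  split_ifs <;> omega

theorem Frame.adj_UB (F : Frame h i₀ u j k) {x y : Fin n} (hx : x ∈ seg n i₀ u)
    (hy : y ∈ seg n j k) :
    x < y ∧ ((y : ℕ) < hgen h i₀ u j k u₁ s₁ x ↔ (i₀ + u₁ ≤ (x : ℕ) ∨ (y : ℕ) < j + s₁)) := by
  have := mem_seg.1 hy; have := mem_seg.1 hx; have := F.hij
  refine ⟨Fin.lt_def.2 (by omega), ?_⟩
  unfold hgen
  rw [if_pos hx]
  split_ifs <;> omega

theorem Frame.adj_BB (F : Frame h i₀ u j k) {x y : Fin n} (hx : x ∈ seg n j k)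
    (hy : y ∈ seg n j k) : (y : ℕ) < hgen h i₀ u j k u₁ s₁ x := by
  have := mem_seg.1 hy; have := mem_seg.1 hx; have := F.hij
  have hxU : x ∉ seg n i₀ u := fun hc => by rw [mem_seg] at hc; omega
  rw [hgen_outside hxU, F.blockEnd_eq hx]
  have := F.blockEnd_ge
  omega

theorem sum_three {M : Type*} [AddCommMonoid M] (F : Frame h i₀ u j k) (φ : Fin n → M) :
    ∑ x, φ x = ∑ o : ↥(outside n i₀ u j k), φ o + ∑ x ∈ seg n i₀ u, φ x + ∑ x ∈ seg n j k, φ x := by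
  have hdisj : Disjoint (seg n i₀ u) (seg n j k) := by
    rw [disjoint_left]
    intro x h1 h2
    rw [mem_seg] at h1 h2
    have := F.hij
    omega
  rw [add_assoc, ← sum_union hdisj, outside, Finset.sum_coe_sort, sum_compl_add_sum]

end Vale.Agent.P066
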