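import Vale.Agent.P066.Positive

/-! Finer links only contribute a factor with coefficients in `ℕ[q]`. -/

noncomputable section

open Finset
open scoped Classical Polynomial

namespace Vale.Agent.P066

variable {n : ℕ}

theorem content_insert_dvd {L : Finset ℕ} (hL : ∀ p ∈ L, p + 1 < n) {m : ℕ} (hm : m + 1 < n) :
    content n L ∣ content n (insert m L) := by
  by_cases hmL : m ∈ L
  · rw [insert_eq_of_mem hmL]
  have hex : ∃ b, 0 < b ∧ m + b ∉ L := ⟨n - 1 - m, by omega, fun hc => by have := hL _ hc; omega⟩
  obtain ⟨b, ⟨hb0, hb⟩, hmin⟩ : ∃ b, (0 < b ∧ m + b ∉ L) ∧ ∀ d < b, ¬ (0 < d ∧ m + d ∉ L) :=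
    ⟨Nat.find hex, Nat.find_spec hex, fun d hd => Nat.find_min hex hd⟩
  have hbn : m + 1 + b ≤ n := by
    rcases Nat.lt_or_ge (n - 1 - m) b with h | h
    · exact absurd ⟨by omega, fun hc => by have := hL _ hc; omega⟩ (hmin _ h)
    · omega
  set r := rank L m with hr
  have hlow : ∀ i, i ≤ m → rank (insert m L) i = rank L i := fun i hi =>
    rank_congr i fun x hx => by simp [show x ≠ m by omega]
  have hmid : ∀ d, d < b →
      rank L (m + 1 + d) = d + 1 ∧ rank (insert m L) (m + 1 + d) = r + d + 1 := by
    intro d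
    induction d with
    | zero => intro _; simp [rank, hmL, hlow m le_rfl, hr]
    | succ d ih =>
      intro hd
      obtain ⟨h1, h2⟩ := ih (by omega)
      have hin : m + 1 + d ∈ L := by
        by_contra hc
        exact hmin (d + 1) hd ⟨by omega, by rwa [show m + (d + 1) = m + 1 + d by omega]⟩
      rw [show m + 1 + (d + 1) = m + 1 + d + 1 by omega]
      rw [rank, rank, if_pos hin, if_pos (mem_insert_of_mem hin), h1, h2]
      omega
  have hhigh : ∀ e, rank (insert m L) (m + 1 + b + e) = rank L (m + 1 + b + e) := by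
    intro e
    induction e with
    | zero =>
      rw [show m + 1 + b + 0 = m + b + 1 by omega]
      simp [rank, hb, hb0.ne']
    | succ e ih =>
      rw [show m + 1 + b + (e + 1) = m + 1 + b + e + 1 by omega]
      simp [rank, ih, show m + 1 + b + e ≠ m by omega]
  obtain ⟨e, he⟩ := Nat.exists_eq_add_of_le hbn
  refine ⟨qbinom (r + b) r, ?_⟩
  have hsplit : ∀ M : Finset ℕ, content n M =
      (∏ i ∈ range (m + 1), qint (rank M i)) * (∏ d ∈ range b, qint (rank M (m + 1 + d))) *
        ∏ x ∈ range e, qint (rank M (m + 1 + b + x)) := fun M => by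
    rw [content, he, prod_range_add, prod_range_add]
  rw [hsplit, hsplit L]
  have h1 : ∏ i ∈ range (m + 1), qint (rank (insert m L) i) =
      ∏ i ∈ range (m + 1), qint (rank L i) :=
    prod_congr rfl fun i hi => by rw [hlow i (by rw [Finset.mem_range] at hi; omega)]
  have h2 : ∏ d ∈ range b, qint (rank L (m + 1 + d)) = qfact b :=
    prod_congr rfl fun d hd => by rw [(hmid d (Finset.mem_range.1 hd)).1]
  have h3 : qfact r * ∏ d ∈ range b, qint (rank (insert m L) (m + 1 + d)) = qfact (r + b) := by
    rw [qfact, qfact, prod_range_add]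
    exact congrArg _ (prod_congr rfl fun d hd => by rw [(hmid d (Finset.mem_range.1 hd)).2])
  have h4 : ∏ d ∈ range b, qint (rank (insert m L) (m + 1 + d)) = qbinom (r + b) r * qfact b := by
    refine mul_left_cancel₀ (qfact_ne_zero r) ?_
    rw [h3, ← qbinom_mul_fact]
    ring
  have h5 : ∏ x ∈ range e, qint (rank (insert m L) (m + 1 + b + x)) =
      ∏ x ∈ range e, qint (rank L (m + 1 + b + x)) := prod_congr rfl fun x _ => by rw [hhigh x]
  rw [h1, h2, h4, h5]
  ring

theorem content_dvd {L L' : Finset ℕ} (hL' : ∀ p ∈ L', p + 1 < n) (hs : L ⊆ L') :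
    content n L ∣ content n L' := by
  have key : ∀ S : Finset ℕ, (∀ p ∈ S, p + 1 < n) → content n L ∣ content n (L ∪ S) := by
    intro S
    induction S using Finset.induction_on with
    | empty => intro _; simp
    | insert m S _ ih =>
      intro hS
      rw [union_insert]
      refine (ih fun p hp => hS p (mem_insert_of_mem hp)).trans
        (content_insert_dvd ?_ (hS m (mem_insert_self _ _)))
      intro p hp
      rcases mem_union.1 hp with hp | hp
      · exact hL' p (hs hp)
      · exact hS p (mem_insert_of_mem hp)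
  simpa [union_eq_right.2 hs] using key L' hL'

/-- Positivity passes to finer links. -/
theorem EPosL.finer {h : Fin n → ℕ} (hh : IsHess n h) {L L' : Finset ℕ} (hL' : IsLinks h L')
    (hs : L ⊆ L') (hP : EPosL h L') : EPosL h L := by
  obtain ⟨Q, hQ⟩ := content_dvd (fun p hp => (hL' p hp).1) hs
  obtain ⟨c, hc⟩ := hP.scale Q
  refine ⟨c, fun N => ?_⟩
  rw [chiL_of_factor hh (hL'.mono hs) hL' (hQ.trans (mul_comm _ _)), hc N]

theorem SPos.links {h : Fin n → ℕ} (hh : IsHess n h) {L : Finset ℕ} (hL : IsLinks h L)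
    (hS : SPos h) : EPosL h L :=
  EPosL.finer hh (allLinks_isLinks h) hL.subset_allLinks hS

end Vale.Agent.P066
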