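import Vale.Agent.P066.Fibre
import Vale.Agent.P066.Refine

/-! The modular law for a class of rows ending inside a block of two column classes. -/

noncomputable section

open Finset
open scoped Classical Polynomial

namespace Vale.Agent.P066

variable {n N : ℕ} {h : Fin n → ℕ} {i₀ u j k s u₁ s₁ : ℕ}

/-- A class `U` of rows ends between the two classes that form the column block, and `u ≤ k`. -/
structure Move (h : Fin n → ℕ) (i₀ u j k s : ℕ) : Prop where
  frame : Frame h i₀ u j k
  hs : 0 < s
  hsk : s < k
  huk : u ≤ k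
  hend : ∀ x ∈ seg n i₀ u, h x = j + s
  hleft : j - 1 ∉ allLinks h
  hright : j + k - 1 ∉ allLinks h

theorem Frame.isLinks_gen (F : Frame h i₀ u j k) {Lout : Finset ℕ}
    (hLout : OutLinks n Lout i₀ u j k) (hout : IsLinks h Lout) (hu₁ : u₁ ≤ u) (hs₁ : s₁ ≤ k) :
    IsLinks (hgen h i₀ u j k u₁ s₁) (linksGen Lout i₀ u j k u₁ s₁) := by
  have := F.hij; have := F.hjk
  intro p hp
  rw [Frame.linksGen_mem] at hp
  have hp1 : p + 1 < n := by
    rcases hp with hp | hp | hp | hp | hp
    · exact (hLout p hp).1
    all_goals omega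
  refine ⟨hp1, ?_, fun a ha => ?_⟩
  · simp only [hgen, mem_seg]
    rcases hp with hp | hp | hp | hp | hp
    · obtain ⟨-, l1, l2⟩ := hLout p hp
      rw [if_neg (by omega), if_neg (by omega)]
      obtain ⟨_, h1, -⟩ := hout p hp
      exact h1
    · rw [if_pos (by omega), if_pos (by omega), if_pos (by omega), if_pos (by omega)]
    · rw [if_pos (by omega), if_neg (by omega), if_pos (by omega), if_neg (by omega)]
    · rw [if_neg (by omega), if_neg (by omega)]
      exact F.hBeq _ (mem_seg.2 (by simp only; omega)) _ (mem_seg.2 (by simp only; omega))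
    · rw [if_neg (by omega), if_neg (by omega)]
      exact F.hBeq _ (mem_seg.2 (by simp only; omega)) _ (mem_seg.2 (by simp only; omega))
  · rw [min_eq_left (Fin.le_def.2 (by simp only; omega)), Fin.lt_def] at ha
    simp only at ha ⊢
    by_cases haU : a ∈ seg n i₀ u
    · have ha' := mem_seg.1 haU
      unfold hgen
      rw [if_pos haU]
      rcases hp with hp | hp | hp | hp | hp
      · obtain ⟨-, l1, l2⟩ := hLout p hp
        split_ifs <;> omega
      all_goals split_ifs <;> omega
    · rw [hgen_outside haU]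
      have ha' : (a : ℕ) < i₀ ∨ i₀ + u ≤ (a : ℕ) := by rw [mem_seg] at haU; omega
      rcases hp with hp | hp | hp | hp | hp
      · obtain ⟨_, -, h2⟩ := hout p hp
        have := h2 a (by rw [min_eq_left (Fin.le_def.2 (by simp only; omega)), Fin.lt_def]; exact ha)
        simpa using this
      all_goals
        have := F.hoff a haU
        rcases ha' with ha' | ha'
        · have := F.hUtwin a ha'
          omega
        · omega

theorem hgen_self (hend : ∀ x ∈ seg n i₀ u, h x = j + s) : hgen h i₀ u j k u s = h := by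
  funext x
  unfold hgen
  split_ifs with hx hx'
  · exact (hend x hx).symm
  · exact absurd (mem_seg.1 hx).2 hx'
  · rfl

theorem inner_raised (A C : Finset (Fin N)) (s : ℕ) :
    inner A C 0 s = ∑ C₁ ∈ (C \ A).powersetCard s,
      (Polynomial.X : ℕ[X]) ^ (ascSets C₁ (C \ C₁) + ascSets A C₁) := by
  have hs : (C \ A).powersetCard s = (C.powersetCard s).filter fun C₁ => Disjoint A C₁ := by
    ext T
    simp only [mem_powersetCard, mem_filter, subset_sdiff, disjoint_comm (a := A)]
    tauto
  rw [inner, powersetCard_zero, sum_singleton, hs, sum_filter]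
  simp [innerAsc, ascSets]

theorem inner_lowered (A C : Finset (Fin N)) (t : ℕ) :
    inner A C t 0 = ∑ A₂ ∈ (A \ C).powersetCard t,
      (Polynomial.X : ℕ[X]) ^ (ascSets (A \ A₂) A₂ + ascSets A₂ C) := by
  have hs : (A \ C).powersetCard t = (A.powersetCard t).filter fun A₂ => Disjoint A₂ C := by
    ext T
    simp only [mem_powersetCard, mem_filter, subset_sdiff]
    tauto
  rw [inner, hs, sum_filter]
  simp [innerAsc, ascSets]

/-- The modular law. -/
theorem chiL_move (F : Frame h i₀ u j k) {Lout : Finset ℕ} (hLout : OutLinks n Lout i₀ u j k)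
    (hs : s ≤ k) (huk : u ≤ k) (hend : ∀ x ∈ seg n i₀ u, h x = j + s) :
    chiL N h (linksGen Lout i₀ u j k u s) =
      ∑ t ∈ (range (s + 1)).filter (fun t => t ≤ u),
        scal N (Polynomial.X ^ ((s - t) * (u - t)) * qbinom (k - u) (s - t)) *
          chiL N (hgen h i₀ u j k (u - t) 0) (linksGen Lout i₀ u j k (u - t) 0) := by
  conv_lhs => rw [← hgen_self (k := k) hend]
  rw [chiL_fibre F hLout le_rfl hs, Nat.sub_self]
  simp only [chiL_fibre F hLout (Nat.sub_le u _) (Nat.zero_le k), mul_sum]
  rw [eq_comm, sum_comm]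
  refine sum_congr rfl fun g _ => ?_
  rw [sum_comm]
  refine sum_congr rfl fun A hA => ?_
  rw [sum_comm]
  refine sum_congr rfl fun C hC => ?_
  by_cases hok : OutOK h Lout i₀ u j k g A C
  swap
  · simp only [if_neg hok, mul_zero, sum_const_zero]
  have hA' := (mem_powersetCard.1 hA).2
  have hC' := (mem_powersetCard.1 hC).2
  simp only [if_pos hok]
  rw [inner_raised, colour_identity A C (by omega), map_sum, mul_sum, sum_filter]
  refine sum_congr rfl fun t _ => ?_
  split_ifs with ht
  · rw [show u - (u - t) = t by omega, inner_lowered, hA', hC']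
    simp only [map_mul]
    ring
  · rw [powersetCard_eq_empty.2 (by have := card_le_card (sdiff_subset (s := A) (t := C)); omega),
      sum_empty, mul_zero, map_zero, mul_zero]

/-- The links of all twins of a move, outside the two blocks. -/
def outTwins (h : Fin n → ℕ) (i₀ u j k : ℕ) : Finset ℕ :=
  (allLinks h).filter fun p => (p + 1 < i₀ ∨ i₀ + u ≤ p) ∧ (p + 1 < j ∨ j + k ≤ p)

theorem outTwins_out : OutLinks n (outTwins h i₀ u j k) i₀ u j k := fun p hp => by
  obtain ⟨h1, h2⟩ := mem_filter.1 hp
  exact ⟨(allLinks_isLinks h p h1).1, h2⟩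

theorem outTwins_links : IsLinks h (outTwins h i₀ u j k) :=
  (allLinks_isLinks h).mono (filter_subset _ _)

theorem Move.links_eq (M : Move h i₀ u j k s) :
    linksGen (outTwins h i₀ u j k) i₀ u j k u s = allLinks h := by
  have F := M.frame
  have := F.hu; have := F.hij; have := F.hjk; have := M.hs; have := M.hsk
  refine subset_antisymm ?_ fun p hp => ?_
  · have h1 := F.isLinks_gen (u₁ := u) (s₁ := s) outTwins_out outTwins_links le_rfl M.hsk.le
    rw [hgen_self M.hend] at h1
    exact h1.subset_allLinks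
  obtain ⟨hp1, htw, hleft⟩ := mem_allLinks.1 hp
  let x : Fin n := ⟨p, by omega⟩
  let y : Fin n := ⟨p + 1, hp1⟩
  change h x = h y at htw
  have hne1 : p + 1 ≠ i₀ := fun e => by
    have h1 := F.below (x := x) (show p < i₀ by omega)
    have h2 := M.hend y (mem_seg.2 (by simp only [y]; omega))
    omega
  have hne2 : p + 1 ≠ i₀ + u := fun e => by
    have h1 := F.above (x := y) (show i₀ + u ≤ p + 1 by omega)
    have h2 := M.hend x (mem_seg.2 (by simp only [x]; omega))
    omega
  have hne3 : p + 1 ≠ j := fun e => M.hleft (by rwa [show j - 1 = p by omega])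
  have hne4 : p + 1 ≠ j + k := fun e => M.hright (by rwa [show j + k - 1 = p by omega])
  have hne5 : p + 1 ≠ j + s := fun e => by
    let a : Fin n := ⟨i₀, by omega⟩
    have h3 := hleft a (by rw [min_eq_left (Fin.le_def.2 (by simp only; omega)), Fin.lt_def]
                           simp only [a]; omega)
    have h2 := M.hend a (mem_seg.2 (by simp only [a]; omega))
    simp only at h3
    omega
  rw [Frame.linksGen_mem, outTwins, mem_filter]
  by_cases hout : (p + 1 < i₀ ∨ i₀ + u ≤ p) ∧ (p + 1 < j ∨ j + k ≤ p)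
  · exact Or.inl ⟨hp, hout⟩
  · omega

/-- A move preserves the strengthened positivity statement. -/
theorem Move.sPos (M : Move h i₀ u j k s)
    (hall : ∀ t, t ≤ u → t ≤ s → s - t ≤ k - u → SPos (hgen h i₀ u j k (u - t) 0)) : SPos h := by
  have F := M.frame
  have hterm : ∀ t, ∃ c : n.Partition → ℕ[X], t ≤ u → t ≤ s → ∀ N,
      scal N (Polynomial.X ^ ((s - t) * (u - t)) * qbinom (k - u) (s - t)) *
        chiL N (hgen h i₀ u j k (u - t) 0) (linksGen (outTwins h i₀ u j k) i₀ u j k (u - t) 0) =
        ∑ l, scal N (c l) * elemProd N l := by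
    intro t
    by_cases ht : t ≤ u ∧ t ≤ s ∧ s - t ≤ k - u
    · have hh := F.hgen_hess (u₁ := u - t) (Nat.zero_le k)
      obtain ⟨c, hc⟩ := ((hall t ht.1 ht.2.1 ht.2.2).links hh (F.isLinks_gen outTwins_out
        outTwins_links (Nat.sub_le u t) (Nat.zero_le k))).scale
          (Polynomial.X ^ ((s - t) * (u - t)) * qbinom (k - u) (s - t))
      exact ⟨c, fun _ _ N => hc N⟩
    · exact ⟨0, fun h1 h2 N => by
        rw [qbinom_eq_zero (by omega : k - u < s - t)]
        simp⟩
  choose c hc using hterm
  refine ⟨fun l => ∑ t ∈ (range (s + 1)).filter (fun t => t ≤ u), c t l, fun N => ?_⟩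
  rw [← M.links_eq, chiL_move F outTwins_out M.hsk.le M.huk M.hend]
  simp only [map_sum, sum_mul]
  rw [sum_comm]
  refine sum_congr rfl fun t ht => ?_
  obtain ⟨h1, h2⟩ := mem_filter.1 ht
  exact hc t h2 (Nat.lt_succ_iff.1 (Finset.mem_range.1 h1)) N

end Vale.Agent.P066
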