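import Vale.Agent.P066.Sorted

/-! The strengthened positivity statement: colourings decreasing on every class of twins. -/

noncomputable section

open Finset
open scoped Classical Polynomial

namespace Vale.Agent.P066

variable {n : ℕ}

/-- The restricted chromatic function has an expansion in `e_λ` with coefficients in `ℕ[q]`. -/
def EPosL (h : Fin n → ℕ) (L : Finset ℕ) : Prop :=
  ∃ c : n.Partition → ℕ[X], ∀ N : ℕ, chiL N h L = ∑ l, scal N (c l) * elemProd N l

/-- All links between neighbouring twins. -/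
def allLinks (h : Fin n → ℕ) : Finset ℕ :=
  (range n).filter fun p => ∃ hp : p + 1 < n,
    Twin h ⟨p, (Nat.lt_succ_self p).trans hp⟩ ⟨p + 1, hp⟩

theorem mem_allLinks {h : Fin n → ℕ} {p : ℕ} : p ∈ allLinks h ↔ ∃ hp : p + 1 < n,
    Twin h ⟨p, (Nat.lt_succ_self p).trans hp⟩ ⟨p + 1, hp⟩ := by
  simp only [allLinks, mem_filter, Finset.mem_range, and_iff_right_iff_imp]
  rintro ⟨hp, -⟩
  omega

theorem allLinks_isLinks (h : Fin n → ℕ) : IsLinks h (allLinks h) :=
  fun _ hp => mem_allLinks.1 hp

theorem IsLinks.subset_allLinks {h : Fin n → ℕ} {L : Finset ℕ} (hL : IsLinks h L) :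
    L ⊆ allLinks h := fun p hp => mem_allLinks.2 (hL p hp)

/-- The strengthened statement: even after division by the content of all twin classes. -/
def SPos (h : Fin n → ℕ) : Prop := EPosL h (allLinks h)

theorem EPosL.scale {h : Fin n → ℕ} {L : Finset ℕ} (hL : EPosL h L) (Q : ℕ[X]) :
    ∃ c : n.Partition → ℕ[X], ∀ N : ℕ,
      scal N Q * chiL N h L = ∑ l, scal N (c l) * elemProd N l := by
  obtain ⟨c, hc⟩ := hL
  exact ⟨fun l => Q * c l, fun N => by simp only [hc N, mul_sum, map_mul, mul_assoc]⟩

theorem SPos.ePositive {h : Fin n → ℕ} (hh : IsHess n h) (hS : SPos h) : EPositive h := by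
  obtain ⟨c, hc⟩ := hS.scale (content n (allLinks h))
  exact ⟨c, fun N => by rw [chi_eq_content_mul hh (allLinks_isLinks h), hc N]; rfl⟩

end Vale.Agent.P066
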