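import Mathlib

/-! Gaussian binomial coefficients in `ℕ[q]` and elementary symmetric functions of powers of `q`. -/

open Finset Polynomial
open scoped Polynomial

namespace Vale.Agent.P066

/-- `[m]_q = 1 + q + ⋯ + q^(m-1)`. -/
noncomputable def qint (m : ℕ) : ℕ[X] := ∑ i ∈ range m, X ^ i

/-- `[m]_q! = [1]_q ⋯ [m]_q`. -/
noncomputable def qfact (m : ℕ) : ℕ[X] := ∏ i ∈ range m, qint (i + 1)

/-- The Gaussian binomial coefficient. -/
noncomputable def qbinom : ℕ → ℕ → ℕ[X]
  | _, 0 => 1
  | 0, _ + 1 => 0
  | n + 1, k + 1 => qbinom n k + X ^ (k + 1) * qbinom n (k + 1)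

theorem qbinom_zero_right (n : ℕ) : qbinom n 0 = 1 := by cases n <;> rfl

theorem qbinom_succ (n k : ℕ) :
    qbinom (n + 1) (k + 1) = qbinom n k + X ^ (k + 1) * qbinom n (k + 1) := rfl

theorem qbinom_eq_zero : ∀ {n k : ℕ}, n < k → qbinom n k = 0
  | 0, k + 1, _ => rfl
  | n + 1, k + 1, h => by
    rw [qbinom_succ, qbinom_eq_zero (show n < k by omega),
      qbinom_eq_zero (show n < k + 1 by omega)]
    simp

theorem qfact_succ (m : ℕ) : qfact (m + 1) = qfact m * qint (m + 1) := prod_range_succ _ _

theorem qint_add (a b : ℕ) : qint (a + b) = qint a + X ^ a * qint b := by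
  simp only [qint, sum_range_add, mul_sum, pow_add]

theorem qbinom_mul_fact (a b : ℕ) : qbinom (a + b) a * qfact a * qfact b = qfact (a + b) := by
  induction a generalizing b with
  | zero => simp [qbinom_zero_right, qfact]
  | succ a iha =>
    induction b with
    | zero =>
      have h0 := iha 0
      rw [Nat.add_zero] at h0 ⊢
      rw [qbinom_succ, qbinom_eq_zero (Nat.lt_succ_self a), mul_zero, add_zero, qfact_succ,
        ← mul_assoc (qbinom a a), mul_right_comm _ (qint (a + 1)), h0]
    | succ b ihb =>
      have h1 := iha (b + 1)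
      rw [show a + 1 + b = a + (b + 1) by omega] at ihb
      rw [show a + 1 + (b + 1) = a + (b + 1) + 1 by omega, qbinom_succ, qfact_succ (a + (b + 1)),
        show a + (b + 1) + 1 = (a + 1) + (b + 1) by omega, qint_add]
      calc (qbinom (a + (b + 1)) a + X ^ (a + 1) * qbinom (a + (b + 1)) (a + 1)) * qfact (a + 1) *
            qfact (b + 1)
          = qbinom (a + (b + 1)) a * qfact a * qfact (b + 1) * qint (a + 1) +
            qbinom (a + (b + 1)) (a + 1) * qfact (a + 1) * qfact b * (X ^ (a + 1) * qint (b + 1)) := by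
              rw [qfact_succ a, qfact_succ b]; ring
        _ = _ := by rw [h1, ihb]; ring

theorem qint_ne_zero {m : ℕ} (h : 0 < m) : qint m ≠ 0 := by
  intro h0
  have h1 := congrArg (fun p : ℕ[X] => p.coeff 0) h0
  simp only [qint, finsetSum_coeff, coeff_X_pow, coeff_zero] at h1
  simp [h] at h1

theorem qfact_ne_zero (m : ℕ) : qfact m ≠ 0 :=
  prod_ne_zero_iff.2 fun i _ => qint_ne_zero i.succ_pos

variable {R : Type*} [CommSemiring R]

theorem esymm_cons_succ (x : R) (a : Multiset R) (r : ℕ) :
    (x ::ₘ a).esymm (r + 1) = x * a.esymm r + a.esymm (r + 1) := by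
  simp only [Multiset.esymm, Multiset.powersetCard_cons, Multiset.map_add, Multiset.sum_add,
    Multiset.map_map, Function.comp_def, Multiset.prod_cons, Multiset.sum_map_mul_left]
  exact add_comm _ _

theorem esymm_zero_right (a : Multiset R) : a.esymm 0 = 1 := by simp [Multiset.esymm]

/-- Elementary symmetric functions of a union. -/
theorem esymm_add (a b : Multiset R) :
    ∀ s, (a + b).esymm s = ∑ t ∈ range (s + 1), a.esymm t * b.esymm (s - t) := by
  induction a using Multiset.induction_on with
  | empty =>
    intro s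
    rw [zero_add, sum_eq_single 0]
    · simp [esymm_zero_right]
    · intro t _ ht
      obtain ⟨t, rfl⟩ := Nat.exists_eq_succ_of_ne_zero ht
      simp [Multiset.esymm, Multiset.powersetCard_zero_right]
    · simp
  | cons x a ih =>
    intro s
    rcases s with _ | s
    · simp [esymm_zero_right]
    · rw [Multiset.cons_add, esymm_cons_succ, ih, ih, sum_range_succ' _ (s + 1),
        sum_range_succ' _ (s + 1), mul_sum]
      simp only [esymm_cons_succ, esymm_zero_right, Nat.succ_sub_succ, add_mul, mul_assoc,
        sum_add_distrib]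
      ring

/-- Elementary symmetric functions of `q^u, …, q^(u+m-1)`. -/
theorem esymm_geom : ∀ m u r : ℕ,
    ((Multiset.range m).map fun i => (X : ℕ[X]) ^ (u + i)).esymm r =
      X ^ (r * u + r.choose 2) * qbinom m r := by
  intro m
  induction m with
  | zero =>
    intro u r
    rcases r with _ | r
    · simp [esymm_zero_right, qbinom_zero_right]
    · simp [Multiset.esymm, qbinom_eq_zero, Multiset.powersetCard_zero_right]
  | succ m ih =>
    intro u r
    rcases r with _ | r
    · simp [esymm_zero_right, qbinom_zero_right]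
    have hmul : ((Multiset.range (m + 1)).map fun i => (X : ℕ[X]) ^ (u + i)) =
        X ^ u ::ₘ ((Multiset.range m).map fun i => (X : ℕ[X]) ^ (u + 1 + i)) := by
      simp only [Multiset.range, Multiset.map_coe, Multiset.cons_coe, List.range_succ_eq_map,
        List.map_cons, List.map_map, Function.comp_def, Nat.add_zero]
      simp [Nat.add_right_comm, Nat.add_assoc, Nat.succ_eq_add_one]
    rw [hmul, esymm_cons_succ, ih, ih, qbinom_succ, Nat.choose_succ_succ', Nat.choose_one_right]
    ring

end Vale.Agent.P066
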