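import Vale.Agent.P066.Positive

/-! Reversing the vertex order preserves the strengthened positivity statement. -/

noncomputable section

open Finset
open scoped Polynomial

namespace Vale.Agent.P066

variable {n N : ℕ}

/-- The natural unit interval order of the reversed graph. -/
def hrev (h : Fin n → ℕ) (x : Fin n) : ℕ :=
  n - (univ.filter fun a => h a ≤ (Fin.rev x : ℕ)).card

theorem lt_card_le_iff {h : Fin n → ℕ} (hm : Monotone h) (b : ℕ) (a : Fin n) :
    (a : ℕ) < (univ.filter fun x => h x ≤ b).card ↔ h a ≤ b := by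
  constructor
  · intro hlt
    by_contra hc
    have hsub : (univ.filter fun x => h x ≤ b) ⊆ Finset.Iio a := fun x hx => by
      rw [Finset.mem_Iio]
      by_contra hxa
      exact hc ((hm (not_lt.1 hxa)).trans (mem_filter.1 hx).2)
    have := card_le_card hsub
    rw [Fin.card_Iio] at this
    omega
  · intro hle
    have hsub : Finset.Iic a ⊆ univ.filter fun x => h x ≤ b := fun x hx =>
      mem_filter.2 ⟨mem_univ _, (hm (Finset.mem_Iic.1 hx)).trans hle⟩
    have := card_le_card hsub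
    rw [Fin.card_Iic] at this
    omega

theorem lt_hrev_iff {h : Fin n → ℕ} (hm : Monotone h) (x y : Fin n) :
    (y : ℕ) < hrev h x ↔ (Fin.rev x : ℕ) < h (Fin.rev y) := by
  have h1 := lt_card_le_iff hm (Fin.rev x : ℕ) (Fin.rev y)
  have h2 := (Fin.rev y).isLt
  have h3 := Fin.val_rev y
  rw [hrev]
  omega

theorem IsHess.rev {h : Fin n → ℕ} (hh : IsHess n h) : IsHess n (hrev h) := by
  refine ⟨fun x y hxy => Nat.sub_le_sub_left (card_le_card fun a ha => ?_) n, fun x => ?_⟩
  · refine mem_filter.2 ⟨mem_univ _, (mem_filter.1 ha).2.trans ?_⟩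
    exact Fin.rev_le_rev.2 hxy
  · exact ⟨(lt_hrev_iff hh.1 x x).2 (hh.2 _).1, Nat.sub_le _ _⟩

theorem hrev_hrev {h : Fin n → ℕ} (hh : IsHess n h) : hrev (hrev h) = h := by
  funext x
  have hiff : ∀ y : Fin n, (y : ℕ) < hrev (hrev h) x ↔ (y : ℕ) < h x := fun y => by
    rw [lt_hrev_iff hh.rev.1, lt_hrev_iff hh.1, Fin.rev_rev, Fin.rev_rev]
  rcases lt_trichotomy (hrev (hrev h) x) (h x) with hlt | he | hlt
  · exact absurd ((hiff ⟨_, hlt.trans_le (hh.2 x).2⟩).2 hlt) (lt_irrefl _)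
  · exact he
  · exact absurd ((hiff ⟨_, hlt.trans_le (Nat.sub_le _ _)⟩).1 hlt) (lt_irrefl _)

theorem Twin.rev {h : Fin n → ℕ} (hh : IsHess n h) {i j : Fin n} (ht : Twin h i j) :
    Twin (hrev h) (Fin.rev i) (Fin.rev j) := by
  constructor
  · simp only [hrev, Fin.rev_rev]
    congr 2
    refine filter_congr fun a _ => ?_
    rcases lt_or_ge a (min i j) with ha | ha
    · rw [← not_lt, ← not_lt, ht.2 a ha]
    · have h1 : h i ≤ h a := by
        rcases le_total i j with hij | hij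
        · exact hh.1 (by rwa [min_eq_left hij] at ha)
        · rw [ht.1]; exact hh.1 (by rwa [min_eq_right hij] at ha)
      have h2 := (hh.2 i).1
      have h3 := (hh.2 j).1
      have h4 := ht.1
      omega
  · intro a _
    rw [lt_hrev_iff hh.1, lt_hrev_iff hh.1, Fin.rev_rev, Fin.rev_rev, ht.1]

theorem twin_rev_iff {h : Fin n → ℕ} (hh : IsHess n h) {i j : Fin n} :
    Twin (hrev h) (Fin.rev i) (Fin.rev j) ↔ Twin h i j := by
  refine ⟨fun ht => ?_, Twin.rev hh⟩
  have := ht.rev hh.rev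
  rwa [hrev_hrev hh, Fin.rev_rev, Fin.rev_rev] at this

theorem Twin.symm {h : Fin n → ℕ} {i j : Fin n} (ht : Twin h i j) : Twin h j i :=
  ⟨ht.1.symm, fun a ha => (ht.2 a (by rwa [min_comm])).symm⟩

theorem mem_allLinks_rev {h : Fin n → ℕ} (hh : IsHess n h) {i j : Fin n} (hij : (j : ℕ) = i + 1) :
    (i : ℕ) ∈ allLinks (hrev h) ↔ (Fin.rev j : ℕ) ∈ allLinks h := by
  have key : ∀ (g : Fin n → ℕ) (x y : Fin n), (y : ℕ) = x + 1 →
      ((x : ℕ) ∈ allLinks g ↔ Twin g x y) := by
    intro g x y hxy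
    rw [mem_allLinks]
    have e : (⟨(x : ℕ) + 1, hxy ▸ y.isLt⟩ : Fin n) = y := Fin.ext hxy.symm
    exact ⟨fun ⟨_, ht⟩ => e ▸ ht, fun ht => ⟨hxy ▸ y.isLt, e.symm ▸ ht⟩⟩
  have hr : (Fin.rev i : ℕ) = (Fin.rev j : ℕ) + 1 := by
    rw [Fin.val_rev, Fin.val_rev]; omega
  rw [key _ _ _ hij, key _ _ _ hr, ← twin_rev_iff hh (i := Fin.rev j) (j := Fin.rev i),
    Fin.rev_rev, Fin.rev_rev]
  exact ⟨Twin.symm, Twin.symm⟩

/-- Reversed vertices and reversed colours. -/
def revCol (f : Fin n → Fin N) : Fin n → Fin N := fun x => Fin.rev (f (Fin.rev x))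

theorem revCol_revCol (f : Fin n → Fin N) : revCol (revCol f) = f := by
  funext x
  simp [revCol]

theorem IsProper.rev {h : Fin n → ℕ} (hh : IsHess n h) {f : Fin n → Fin N} (hf : IsProper h f) :
    IsProper (hrev h) (revCol f) := by
  intro x y hxy hy he
  exact hf (Fin.rev y) (Fin.rev x) (Fin.rev_lt_rev.2 hxy) ((lt_hrev_iff hh.1 x y).1 hy)
    (Fin.rev_injective he).symm

theorem asc_revCol {h : Fin n → ℕ} (hh : IsHess n h) (f : Fin n → Fin N) :
    asc (hrev h) (revCol f) = asc h f := by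
  refine card_nbij' (fun p => (Fin.rev p.2, Fin.rev p.1)) (fun p => (Fin.rev p.2, Fin.rev p.1))
    ?_ ?_ (fun p _ => by simp) (fun p _ => by simp)
  all_goals
    intro p hp
    simp only [coe_filter, mem_univ, true_and, Set.mem_ofPred_eq, revCol, Fin.rev_lt_rev,
      lt_hrev_iff hh.1, Fin.rev_rev] at hp ⊢
    exact hp

theorem revCol_mem {h : Fin n → ℕ} (hh : IsHess n h) {f : Fin n → Fin N}
    (hf : f ∈ colourings N h (allLinks h)) :
    revCol f ∈ colourings N (hrev h) (allLinks (hrev h)) := by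
  rw [mem_colourings] at hf ⊢
  refine ⟨hf.1.rev hh, fun i j hij hi => Fin.rev_lt_rev.2 (hf.2 (Fin.rev j) (Fin.rev i) ?_ ?_)⟩
  · rw [Fin.val_rev, Fin.val_rev]; omega
  · exact (mem_allLinks_rev hh hij).1 hi

theorem chiL_hrev {h : Fin n → ℕ} (hh : IsHess n h) :
    chiL N (hrev h) (allLinks (hrev h)) =
      MvPolynomial.rename Fin.rev (chiL N h (allLinks h)) := by
  rw [chiL, chiL, map_sum]
  refine (sum_nbij' revCol revCol (fun f hf => revCol_mem hh hf) (fun f hf => ?_)
    (fun f _ => revCol_revCol f) (fun f _ => revCol_revCol f) (fun f _ => ?_)).symm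
  · have := revCol_mem hh.rev hf
    rwa [hrev_hrev hh] at this
  · rw [wt, wt, asc_revCol hh, map_mul, MvPolynomial.rename_C, map_prod]
    congr 1
    rw [← Equiv.prod_comp Fin.revPerm]
    simp [revCol, MvPolynomial.rename_X]

/-- Reversal preserves the strengthened statement. -/
theorem SPos.rev {h : Fin n → ℕ} (hh : IsHess n h) (hS : SPos h) : SPos (hrev h) := by
  obtain ⟨c, hc⟩ := hS
  refine ⟨c, fun N => ?_⟩
  rw [chiL_hrev hh, hc N, map_sum]
  refine sum_congr rfl fun l _ => ?_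
  rw [map_mul, scal_apply, MvPolynomial.rename_C, elemProd, map_multiset_prod,
    Multiset.map_map]
  congr 2
  refine Multiset.map_congr rfl fun k _ => ?_
  exact MvPolynomial.rename_esymm (Fin N) ℤ[X] k Fin.revPerm

theorem sPos_hrev_iff {h : Fin n → ℕ} (hh : IsHess n h) : SPos (hrev h) ↔ SPos h :=
  ⟨fun hS => hrev_hrev hh ▸ hS.rev hh.rev, SPos.rev hh⟩

end Vale.Agent.P066
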