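import Vale.Agent.P066.Move
import Vale.Agent.P066.Reverse
import Vale.Agent.P066.Base

/-! Graphs reducible to disjoint cliques by moves and reversals are positive. -/

noncomputable section

open Finset
open scoped Classical Polynomial

namespace Vale.Agent.P066

/-- Reducible to disjoint unions of cliques by moves and reversals. -/
inductive Reducible {n : ℕ} : (Fin n → ℕ) → Prop
  | cliques {h : Fin n → ℕ} (hh : IsHess n h) (hc : IsCliques h) : Reducible h
  | move {h : Fin n → ℕ} {i₀ u j k s : ℕ} (M : Move h i₀ u j k s)
      (hall : ∀ t, t ≤ u → t ≤ s → s - t ≤ k - u → Reducible (hgen h i₀ u j k (u - t) 0)) :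
      Reducible h
  | rev {h : Fin n → ℕ} (hh : IsHess n h) (hr : Reducible h) : Reducible (hrev h)

theorem Reducible.sPos {n : ℕ} {h : Fin n → ℕ} (hr : Reducible h) : SPos h := by
  induction hr with
  | cliques hh hc => exact hc.sPos hh
  | move M _ ih => exact M.sPos ih
  | rev hh _ ih => exact ih.rev hh

theorem Reducible.isHess {n : ℕ} {h : Fin n → ℕ} (hr : Reducible h) : IsHess n h := by
  induction hr with
  | cliques hh _ => exact hh
  | move M _ _ => exact M.frame.hh
  | rev hh _ _ => exact hh.rev

theorem Reducible.ePositive {n : ℕ} {h : Fin n → ℕ} (hr : Reducible h) : EPositive h :=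
  hr.sPos.ePositive hr.isHess

end Vale.Agent.P066
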