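import Vale.Agent.P066.Defs
import Vale.Agent.P066.QBinom

/-! Colourings that decrease along chosen links between neighbouring twins. -/

noncomputable section

open Finset
open scoped Polynomial

namespace Vale.Agent.P066

variable {n N : ℕ}

/-- Coefficients in `ℕ[q]` as scalars of the ring of the chromatic function. -/
def scal (N : ℕ) : ℕ[X] →+* MvPolynomial (Fin N) ℤ[X] :=
  MvPolynomial.C.comp (Polynomial.mapRingHom (Nat.castRingHom ℤ))

theorem scal_apply (N : ℕ) (p : ℕ[X]) :
    scal N p = MvPolynomial.C (p.map (Nat.castRingHom ℤ)) := rfl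

theorem scal_X_pow (N i : ℕ) :
    scal N (Polynomial.X ^ i) = MvPolynomial.C (Polynomial.X ^ i) := by
  rw [scal_apply, Polynomial.map_pow, Polynomial.map_X]

theorem scal_injective (N : ℕ) : Function.Injective (scal N) :=
  (MvPolynomial.C_injective _ _).comp
    (Polynomial.map_injective _ (fun _ _ h => Nat.cast_injective (R := ℤ) h))

/-- The term of one colouring. -/
def wt (h : Fin n → ℕ) (f : Fin n → Fin N) : MvPolynomial (Fin N) ℤ[X] :=
  MvPolynomial.C (Polynomial.X ^ asc h f) * ∏ a, MvPolynomial.X (f a)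

/-- `L` links some neighbouring twins: `p ∈ L` links `p` and `p + 1`. -/
def IsLinks (h : Fin n → ℕ) (L : Finset ℕ) : Prop :=
  ∀ p ∈ L, ∃ hp : p + 1 < n, Twin h ⟨p, (Nat.lt_succ_self p).trans hp⟩ ⟨p + 1, hp⟩

/-- `f` decreases along the links. -/
def Decr (L : Finset ℕ) (f : Fin n → Fin N) : Prop :=
  ∀ i j : Fin n, (j : ℕ) = i + 1 → (i : ℕ) ∈ L → f j < f i

open scoped Classical in
/-- The colourings that are proper and decrease along the links. -/
def colourings (N : ℕ) (h : Fin n → ℕ) (L : Finset ℕ) : Finset (Fin n → Fin N) :=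
  univ.filter fun f => IsProper h f ∧ Decr L f

theorem mem_colourings {h : Fin n → ℕ} {L : Finset ℕ} {f : Fin n → Fin N} :
    f ∈ colourings N h L ↔ IsProper h f ∧ Decr L f := by
  classical
  simp [colourings]

/-- The chromatic function restricted to these colourings. -/
def chiL (N : ℕ) (h : Fin n → ℕ) (L : Finset ℕ) : MvPolynomial (Fin N) ℤ[X] :=
  ∑ f ∈ colourings N h L, wt h f

theorem chiL_empty (N : ℕ) (h : Fin n → ℕ) : chiL N h ∅ = chi N h := by
  classical
  rw [chiL, chi, colourings, sum_filter]
  refine sum_congr rfl fun f _ => ?_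
  have : Decr (∅ : Finset ℕ) f := fun i j _ hi => absurd hi (notMem_empty _)
  by_cases hp : IsProper h f <;> simp [hp, this, wt]

theorem IsLinks.mono {h : Fin n → ℕ} {L L' : Finset ℕ} (hL : IsLinks h L) (hs : L' ⊆ L) :
    IsLinks h L' := fun p hp => hL p (hs hp)

theorem IsLinks.twin {h : Fin n → ℕ} {L : Finset ℕ} (hL : IsLinks h L) {i j : Fin n}
    (hij : (j : ℕ) = i + 1) (hi : (i : ℕ) ∈ L) : Twin h i j := by
  obtain ⟨hp, ht⟩ := hL _ hi
  have e : j = ⟨(i : ℕ) + 1, hp⟩ := Fin.ext hij
  rw [e]; exact ht

/-- Exchanging the colours of two neighbouring twins. -/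
theorem twin_swap {h : Fin n → ℕ} (hh : IsHess n h) {x y : Fin n} (hxy : (y : ℕ) = x + 1)
    (ht : Twin h x y) {f : Fin n → Fin N} (hf : IsProper h f) (hlt : f y < f x) :
    IsProper h (f ∘ Equiv.swap x y) ∧ asc h (f ∘ Equiv.swap x y) = asc h f + 1 ∧
      ∏ a, (MvPolynomial.X ((f ∘ Equiv.swap x y) a) : MvPolynomial (Fin N) ℤ[X]) =
        ∏ a, MvPolynomial.X (f a) := by
  set σ := Equiv.swap x y with hσ
  have hadj : (y : ℕ) < h x := ht.1 ▸ (hh.2 y).1
  have hxy' : x < y := Fin.lt_def.2 (by omega)
  have hne : x ≠ y := ne_of_lt hxy'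
  have hord : ∀ i j : Fin n, i < j → (i = x ∧ j = y) ∨
      (σ i < σ j ∧ ((j : ℕ) < h i ↔ (σ j : ℕ) < h (σ i))) := by
    intro i j hij
    rw [Fin.lt_def] at hij
    by_cases hix : i = x
    · subst hix
      by_cases hjy : j = y
      · exact Or.inl ⟨rfl, hjy⟩
      · have hj : (j : ℕ) ≠ y := fun e => hjy (Fin.ext e)
        have h1 : σ j = j := Equiv.swap_apply_of_ne_of_ne (fun e => by subst e; omega) hjy
        refine Or.inr ⟨?_, ?_⟩
        · rw [hσ, Equiv.swap_apply_left, ← hσ, h1, Fin.lt_def]; omega
        · rw [hσ, Equiv.swap_apply_left, ← hσ, h1, ht.1]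
    by_cases hiy : i = y
    · subst hiy
      have h1 : σ j = j :=
        Equiv.swap_apply_of_ne_of_ne (fun e => by subst e; omega) (fun e => by subst e; omega)
      refine Or.inr ⟨?_, ?_⟩
      · rw [hσ, Equiv.swap_apply_right, ← hσ, h1, Fin.lt_def]; omega
      · rw [hσ, Equiv.swap_apply_right, ← hσ, h1, ht.1]
    have h0 : σ i = i := Equiv.swap_apply_of_ne_of_ne hix hiy
    rw [h0]
    have hi1 : (i : ℕ) ≠ x := fun e => hix (Fin.ext e)
    by_cases hjx : j = x
    · subst hjx
      refine Or.inr ?_
      rw [hσ, Equiv.swap_apply_left, Fin.lt_def]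
      refine ⟨by omega, ?_⟩
      exact ht.2 i (by rw [min_eq_left hxy'.le, Fin.lt_def]; omega)
    by_cases hjy : j = y
    · subst hjy
      refine Or.inr ?_
      rw [hσ, Equiv.swap_apply_right, Fin.lt_def]
      refine ⟨by omega, ?_⟩
      exact (ht.2 i (by rw [min_eq_left hxy'.le, Fin.lt_def]; omega)).symm
    exact Or.inr (by rw [hσ, Equiv.swap_apply_of_ne_of_ne hjx hjy]; exact ⟨Fin.lt_def.2 hij, Iff.rfl⟩)
  have hinv : ∀ a, σ (σ a) = a := fun a => Equiv.swap_apply_self x y a
  refine ⟨fun i j hij hji => ?_, ?_, ?_⟩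
  · rcases hord i j hij with ⟨rfl, rfl⟩ | ⟨h1, h2⟩
    · simp only [Function.comp_apply, hσ, Equiv.swap_apply_left, Equiv.swap_apply_right]
      exact hlt.ne
    · exact hf _ _ h1 (h2.1 hji)
  · set E := fun g : Fin n → Fin N =>
      univ.filter fun p : Fin n × Fin n => p.1 < p.2 ∧ (p.2 : ℕ) < h p.1 ∧ g p.1 < g p.2 with hE
    change (E (f ∘ σ)).card = (E f).card + 1
    have hnot : (x, y) ∉ (E f).map (σ.prodCongr σ).toEmbedding := by
      simp only [mem_map_equiv, E, mem_filter, mem_univ, true_and, Equiv.prodCongr_symm,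
        Equiv.prodCongr_apply, Prod.map, hσ, Equiv.symm_swap, Equiv.swap_apply_left,
        Equiv.swap_apply_right]
      exact fun hc => (not_lt.2 hxy'.le) hc.1
    have hset : E (f ∘ σ) = insert (x, y) ((E f).map (σ.prodCongr σ).toEmbedding) := by
      ext ⟨i, j⟩
      simp only [mem_map_equiv, mem_insert, E, mem_filter, mem_univ, true_and, Equiv.prodCongr_symm,
        Equiv.prodCongr_apply, Prod.map, Function.comp_apply, hσ, Equiv.symm_swap, Prod.mk.injEq]
      rw [← hσ]
      constructor
      · rintro ⟨h1, h2, h3⟩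
        rcases hord i j h1 with h' | ⟨h4, h5⟩
        · exact Or.inl h'
        · exact Or.inr ⟨h4, h5.1 h2, h3⟩
      · rintro (⟨rfl, rfl⟩ | ⟨h1, h2, h3⟩)
        · refine ⟨hxy', hadj, ?_⟩
          rw [hσ, Equiv.swap_apply_left, Equiv.swap_apply_right]; exact hlt
        · rcases hord (σ i) (σ j) h1 with ⟨e1, e2⟩ | ⟨h4, h5⟩
          · rw [e1, e2] at h3
            exact absurd h3 (not_lt.2 hlt.le)
          · rw [hinv, hinv] at h4 h5
            exact ⟨h4, h5.1 h2, h3⟩
    rw [hset, card_insert_of_notMem hnot, card_map]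
  · exact Equiv.prod_comp σ fun a => (MvPolynomial.X (f a) : MvPolynomial (Fin N) ℤ[X])

/-- Carry the colour of position `p` forward by `d` steps. -/
def carry (f : Fin n → Fin N) (p : Fin n) (d : ℕ) : Fin n → Fin N := fun y =>
  if (y : ℕ) = p + d then f p
  else if hy : (p : ℕ) ≤ y ∧ (y : ℕ) < p + d ∧ (y : ℕ) + 1 < n then f ⟨y + 1, hy.2.2⟩ else f y

theorem carry_zero (f : Fin n → Fin N) (p : Fin n) : carry f p 0 = f := by
  funext y
  unfold carry
  split_ifs with h1 h2
  · rw [Fin.ext (show (p : ℕ) = y by omega)]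
  · omega
  · rfl

theorem carry_succ (f : Fin n → Fin N) (p : Fin n) (d : ℕ) {x y : Fin n} (hx : (x : ℕ) = p + d)
    (hy : (y : ℕ) = p + (d + 1)) : carry f p (d + 1) = carry f p d ∘ Equiv.swap x y := by
  funext a
  simp only [Function.comp_apply]
  by_cases hax : a = x
  · subst hax
    rw [Equiv.swap_apply_left]
    unfold carry
    rw [if_neg (by omega), dif_pos ⟨by omega, by omega, by omega⟩, if_neg (by omega),
      dif_neg (fun h => by omega)]
    exact congrArg f (Fin.ext (show (a : ℕ) + 1 = y by omega))
  by_cases hay : a = y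
  · subst hay
    rw [Equiv.swap_apply_right]
    unfold carry
    rw [if_pos hy, if_pos hx]
  rw [Equiv.swap_apply_of_ne_of_ne hax hay]
  have h1 : (a : ℕ) ≠ x := fun e => hax (Fin.ext e)
  have h2 : (a : ℕ) ≠ y := fun e => hay (Fin.ext e)
  unfold carry
  rw [if_neg (by omega), if_neg (by omega)]
  split_ifs <;> first | rfl | omega

/-- Carrying a colour forward over smaller colours of twins raises the ascents by the distance. -/
theorem carry_spec {h : Fin n → ℕ} (hh : IsHess n h) {f : Fin n → Fin N} (hf : IsProper h f)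
    (p : Fin n) : ∀ d : ℕ, (p : ℕ) + d < n →
      (∀ i j : Fin n, (j : ℕ) = i + 1 → (p : ℕ) ≤ i → (i : ℕ) < p + d → Twin h i j) →
      (∀ i : Fin n, (p : ℕ) < i → (i : ℕ) ≤ p + d → f i < f p) →
      IsProper h (carry f p d) ∧ asc h (carry f p d) = asc h f + d ∧
        ∏ a, (MvPolynomial.X (carry f p d a) : MvPolynomial (Fin N) ℤ[X]) =
          ∏ a, MvPolynomial.X (f a) := by
  intro d
  induction d with
  | zero => intro _ _ _; rw [carry_zero]; exact ⟨hf, rfl, rfl⟩
  | succ d ih =>
    intro hn htw hlt
    obtain ⟨h1, h2, h3⟩ := ih (by omega) (fun i j e a b => htw i j e a (by omega))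
      fun i a b => hlt i a (by omega)
    let x : Fin n := ⟨p + d, by omega⟩
    let y : Fin n := ⟨p + (d + 1), hn⟩
    have hl : carry f p d y < carry f p d x := by
      unfold carry
      rw [if_pos (show (x : ℕ) = p + d from rfl), if_neg (show ¬ (y : ℕ) = p + d by simp [y]),
        dif_neg (fun h => by simp only [y] at h; omega)]
      exact hlt y (by simp [y]) (by simp [y])
    obtain ⟨e1, e2, e3⟩ := twin_swap hh (show (y : ℕ) = x + 1 by simp [x, y]; omega)
      (htw x y (by simp [x, y]; omega) (by simp [x]) (by simp [x])) h1 hl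
    rw [carry_succ f p d (x := x) (y := y) rfl rfl]
    exact ⟨e1, by rw [e2, h2]; ring, e3.trans h3⟩

/-- The position of `i` inside its block of linked vertices, counted from `1`. -/
def rank (L : Finset ℕ) : ℕ → ℕ
  | 0 => 1
  | i + 1 => if i ∈ L then rank L i + 1 else 1

theorem rank_le (L : Finset ℕ) : ∀ i, 1 ≤ rank L i ∧ rank L i ≤ i + 1
  | 0 => by simp [rank]
  | i + 1 => by
    have := rank_le L i
    simp only [rank]; split_ifs <;> omega

theorem rank_block (L : Finset ℕ) : ∀ i x, x < i → i < x + rank L i → x ∈ L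
  | 0, x, hx, _ => by omega
  | i + 1, x, hx, hb => by
    simp only [rank] at hb
    split_ifs at hb with hi
    · rcases eq_or_lt_of_le (Nat.lt_succ_iff.1 hx) with rfl | hxi
      · exact hi
      · exact rank_block L i x hxi (by omega)
    · omega

theorem rank_start (L : Finset ℕ) : ∀ i x, x + rank L i = i → x ∉ L
  | 0, x, h => by simp [rank] at h
  | i + 1, x, h => by
    simp only [rank] at h
    split_ifs at h with hi
    · exact rank_start L i x (by omega)
    · have : x = i := by omega
      exact this ▸ hi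

theorem rank_congr {L L' : Finset ℕ} : ∀ i, (∀ x < i, (x ∈ L ↔ x ∈ L')) → rank L i = rank L' i
  | 0, _ => rfl
  | i + 1, h => by
    simp only [rank, h i (Nat.lt_succ_self i), rank_congr i fun x hx => h x (hx.trans i.lt_succ_self)]

/-- The product of the `q`-factorials of the block sizes. -/
def content (n : ℕ) (L : Finset ℕ) : ℕ[X] := ∏ i ∈ range n, qint (rank L i)

theorem content_ne_zero (n : ℕ) (L : Finset ℕ) : content n L ≠ 0 :=
  prod_ne_zero_iff.2 fun i _ => qint_ne_zero (rank_le L i).1

theorem content_empty (n : ℕ) : content n ∅ = 1 :=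
  prod_eq_one fun i _ => by cases i <;> simp [rank, qint]

theorem decr_lt {L : Finset ℕ} {f : Fin n → Fin N} (hf : Decr L f) {i : Fin n} :
    ∀ j : Fin n, i < j → (∀ x, (i : ℕ) ≤ x → x < (j : ℕ) → x ∈ L) → f j < f i := by
  intro j
  obtain ⟨j, hj⟩ := j
  induction j with
  | zero => intro h _; exact absurd h (by simp [Fin.lt_def])
  | succ j ih =>
    intro hij hlinks
    rw [Fin.lt_def] at hij
    simp only at hij
    have h1 : f ⟨j + 1, hj⟩ < f ⟨j, by omega⟩ :=
      hf ⟨j, by omega⟩ ⟨j + 1, hj⟩ rfl (hlinks j (by omega) (by simp))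
    rcases eq_or_lt_of_le (Nat.lt_succ_iff.1 hij) with e | hlt
    · rw [show i = (⟨j, by omega⟩ : Fin n) from Fin.ext e]
      exact h1
    · exact h1.trans (ih (by omega) (Fin.lt_def.2 hlt) fun x a b => hlinks x a (by simp at b ⊢; omega))

/-- Removing the last link multiplies by the `q`-integer of the enlarged block. -/
theorem chiL_step {h : Fin n → ℕ} (hh : IsHess n h) {L₀ : Finset ℕ} {m : ℕ}
    (hL : IsLinks h (insert m L₀)) (hlt : ∀ x ∈ L₀, x < m) :
    chiL N h L₀ = scal N (qint (rank L₀ m + 1)) * chiL N h (insert m L₀) := by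
  obtain ⟨hm1, -⟩ := hL m (mem_insert_self m L₀)
  have hr := rank_le L₀ m
  set r := rank L₀ m with hrdef
  have hblock : ∀ x, x < m → m < x + r → x ∈ L₀ := rank_block L₀ m
  have hstart : ∀ x, x + r = m → x ∉ L₀ := rank_start L₀ m
  have hlinks : ∀ x, m + 1 - r ≤ x → x ≤ m → x ∈ insert m L₀ := by
    intro x h1 h2
    rcases eq_or_lt_of_le h2 with rfl | h2
    · exact mem_insert_self _ _
    · exact mem_insert_of_mem (hblock x h2 (by omega))
  let P : ℕ → Fin n := fun i => ⟨m + 1 - i, by omega⟩
  have hdec : ∀ f ∈ colourings N h (insert m L₀), ∀ u v : Fin n,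
      m + 1 - r ≤ (u : ℕ) → u < v → (v : ℕ) ≤ m + 1 → f v < f u := fun f hf u v hu huv hv =>
    decr_lt (mem_colourings.1 hf).2 v huv fun x a b => hlinks x (by omega) (by omega)
  have hspec : ∀ f ∈ colourings N h (insert m L₀), ∀ i, i ≤ r →
      IsProper h (carry f (P i) i) ∧ asc h (carry f (P i) i) = asc h f + i ∧
        ∏ a, (MvPolynomial.X (carry f (P i) i a) : MvPolynomial (Fin N) ℤ[X]) =
          ∏ a, MvPolynomial.X (f a) := by
    intro f hf i hi
    refine carry_spec hh (mem_colourings.1 hf).1 (P i) i ?_ ?_ ?_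
    · simp only [P]; omega
    · intro u v huv h1 h2
      simp only [P] at h1 h2
      exact hL.twin huv (hlinks u (by omega) (by omega))
    · intro u h1 h2
      simp only [P] at h1 h2
      exact hdec f hf (P i) u (by simp only [P]; omega) (Fin.lt_def.2 (by simp only [P]; omega)) (by omega)
  symm
  rw [chiL, chiL, mul_sum, qint, map_sum]
  simp only [sum_mul]
  rw [sum_comm, ← sum_product']
  refine sum_bij (fun z _ => carry z.2 (P z.1) z.1) ?_ ?_ ?_ ?_
  · intro z hz
    obtain ⟨hzi, hzf⟩ := mem_product.1 hz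
    have hi : z.1 ≤ r := Nat.lt_succ_iff.1 (Finset.mem_range.1 hzi)
    refine mem_colourings.2 ⟨(hspec _ hzf _ hi).1, fun a b hab ha => ?_⟩
    have ham : (a : ℕ) < m := hlt _ ha
    have hd := (mem_colourings.1 hzf).2
    have hns : (a : ℕ) + r ≠ m := fun e => hstart _ e ha
    unfold carry
    simp only [P]
    rw [if_neg (by omega), if_neg (by omega)]
    split_ifs with hb hc hc
    · exact hd ⟨(a : ℕ) + 1, by omega⟩ ⟨(b : ℕ) + 1, by omega⟩ (by simp only; omega)
        (by simp only; exact hlinks _ (by omega) (by omega))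
    · exact hdec _ hzf a ⟨(b : ℕ) + 1, by omega⟩ (by omega) (Fin.lt_def.2 (by simp only; omega))
        (by simp only; omega)
    · omega
    · exact hd a b hab (mem_insert_of_mem ha)
  · intro z hz w hw hzw
    obtain ⟨hzi, hzf⟩ := mem_product.1 hz
    obtain ⟨hwi, hwf⟩ := mem_product.1 hw
    have key : ∀ i j : ℕ, ∀ f ∈ colourings N h (insert m L₀), ∀ g ∈ colourings N h (insert m L₀),
        i ≤ r → j ≤ r → carry f (P i) i = carry g (P j) j → j ≤ i := by
      intro i j f hf g hg hi hj hfg
      by_contra hlt'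
      have e1 := congrFun hfg (P j)
      have e2 := congrFun hfg ⟨m + 1, hm1⟩
      unfold carry at e1 e2
      simp only [P] at e1 e2
      rw [if_pos (by omega), if_pos (by omega)] at e2
      rw [if_neg (by omega), dif_neg (fun hc => by omega), if_neg (by omega),
        dif_pos ⟨le_rfl, by omega, by omega⟩] at e1
      have h1 := hdec f hf (P j) (P i) (by simp only [P]; omega) (Fin.lt_def.2 (by simp only [P]; omega))
        (by simp only [P]; omega)
      have h2 := hdec g hg (P j) ⟨(P j : ℕ) + 1, by simp only [P]; omega⟩ (by simp only [P]; omega)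
        (Fin.lt_def.2 (by simp only [P]; omega)) (by simp only [P]; omega)
      simp only [P] at h1 h2
      rw [e1, e2] at h1
      exact absurd (h1.trans h2) (lt_irrefl _)
    have hi := Nat.lt_succ_iff.1 (Finset.mem_range.1 hzi)
    have hj := Nat.lt_succ_iff.1 (Finset.mem_range.1 hwi)
    have e : z.1 = w.1 :=
      le_antisymm (key _ _ _ hwf _ hzf hj hi hzw.symm) (key _ _ _ hzf _ hwf hi hj hzw)
    refine Prod.ext e ?_
    funext y
    rw [← e] at hzw
    rcases lt_trichotomy (y : ℕ) (P z.1) with hy | hy | hy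
    · have e1 := congrFun hzw y
      unfold carry at e1
      rw [if_neg (by omega), dif_neg (fun hc => by omega), if_neg (by omega),
        dif_neg (fun hc => by omega)] at e1
      exact e1
    · have e1 := congrFun hzw ⟨(P z.1 : ℕ) + z.1, by simp only [P]; omega⟩
      unfold carry at e1
      rw [if_pos rfl, if_pos rfl] at e1
      rw [Fin.ext hy]; exact e1
    · by_cases hy2 : (y : ℕ) ≤ m + 1
      · have e1 := congrFun hzw ⟨(y : ℕ) - 1, by omega⟩
        simp only [P] at hy
        unfold carry at e1
        simp only [P] at e1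
        rw [if_neg (by omega), dif_pos ⟨by omega, by omega, by omega⟩, if_neg (by omega),
          dif_pos ⟨by omega, by omega, by omega⟩] at e1
        have hy' : (⟨(y : ℕ) - 1 + 1, by omega⟩ : Fin n) = y := Fin.ext (by simp only; omega)
        rw [hy'] at e1
        exact e1
      · have e1 := congrFun hzw y
        simp only [P] at hy
        unfold carry at e1
        simp only [P] at e1
        rw [if_neg (by omega), dif_neg (fun hc => by omega), if_neg (by omega),
          dif_neg (fun hc => by omega)] at e1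
        exact e1
  · intro g hg
    obtain ⟨hgp, hgd⟩ := mem_colourings.1 hg
    let B : Finset (Fin n) := univ.filter fun u : Fin n =>
      m + 1 - r ≤ (u : ℕ) ∧ (u : ℕ) ≤ m ∧ g u < g ⟨m + 1, hm1⟩
    have hmono : ∀ u v : Fin n, m + 1 - r ≤ (u : ℕ) → u < v → (v : ℕ) ≤ m → g v < g u :=
      fun u v hu huv hv => decr_lt hgd v huv fun x a b => hblock x (by omega) (by omega)
    obtain ⟨i, hi⟩ : ∃ i, i = B.card := ⟨_, rfl⟩
    have hB : ∀ u : Fin n, u ∈ B ↔ (m + 1 - i ≤ (u : ℕ) ∧ (u : ℕ) ≤ m) := by
      rcases B.eq_empty_or_nonempty with hBe | hne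
      · intro u
        rw [hBe, card_empty] at hi
        rw [hBe]
        simp only [notMem_empty, false_iff]
        omega
      obtain ⟨h1, h2, h3⟩ := (mem_filter.1 (B.min'_mem hne)).2
      have hchar : ∀ u : Fin n, u ∈ B ↔ ((B.min' hne : Fin n) : ℕ) ≤ u ∧ (u : ℕ) ≤ m := by
        intro u
        refine ⟨fun hu => ⟨B.min'_le u hu, (mem_filter.1 hu).2.2.1⟩, fun hu => ?_⟩
        refine mem_filter.2 ⟨mem_univ _, by omega, hu.2, ?_⟩
        rcases eq_or_lt_of_le hu.1 with e | hlt'
        · rw [← Fin.ext e]; exact h3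
        · exact (hmono _ u h1 (Fin.lt_def.2 hlt') hu.2).trans h3
      have hBm : B.map Fin.valEmbedding = Finset.Icc ((B.min' hne : Fin n) : ℕ) m := by
        ext x
        simp only [Finset.mem_map, Fin.valEmbedding_apply, Finset.mem_Icc, hchar]
        exact ⟨fun ⟨u, hu, e⟩ => e ▸ hu, fun hx => ⟨⟨x, by omega⟩, hx, rfl⟩⟩
      have hc := congrArg Finset.card hBm
      rw [card_map, Nat.card_Icc, ← hi] at hc
      intro u
      rw [hchar u]
      constructor <;> intro hu <;> exact ⟨by omega, hu.2⟩
    have hir : i ≤ r := by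
      rw [hi]
      have hsub : B.map Fin.valEmbedding ⊆ Finset.Icc (m + 1 - r) m := by
        intro x hx
        obtain ⟨u, hu, rfl⟩ := Finset.mem_map.1 hx
        exact Finset.mem_Icc.2 ⟨(mem_filter.1 hu).2.1, (mem_filter.1 hu).2.2.1⟩
      have hc := card_le_card hsub
      rw [card_map, Nat.card_Icc] at hc
      omega
    let f : Fin n → Fin N := fun y =>
      if (y : ℕ) = m + 1 - i then g ⟨m + 1, hm1⟩
      else if hy : m + 1 - i < (y : ℕ) ∧ (y : ℕ) ≤ m + 1 then g ⟨(y : ℕ) - 1, by omega⟩ else g y
    have hcarry : carry f (P i) i = g := by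
      funext y
      unfold carry
      simp only [P, f]
      by_cases h1 : (y : ℕ) = m + 1 - i + i
      · rw [if_pos h1, if_pos trivial]
        exact congrArg g (Fin.ext (show m + 1 = (y : ℕ) by omega))
      rw [if_neg h1]
      by_cases h2 : m + 1 - i ≤ (y : ℕ) ∧ (y : ℕ) < m + 1 - i + i ∧ (y : ℕ) + 1 < n
      · rw [dif_pos h2, if_neg (by omega), dif_pos ⟨by omega, by omega⟩]
        exact congrArg g (Fin.ext (show (y : ℕ) + 1 - 1 = y by omega))
      · rw [dif_neg h2, if_neg (by omega), dif_neg (fun hc => by omega)]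
    have hdf : Decr (insert m L₀) f := by
      intro a b hab ha
      have ha' : (a : ℕ) ≤ m := by
        rcases mem_insert.1 ha with e | e
        · omega
        · exact (hlt _ e).le
      simp only [f]
      by_cases c1 : (a : ℕ) = m + 1 - i
      · rw [if_pos c1, if_neg (by omega), dif_pos ⟨by omega, by omega⟩]
        have hu := (hB ⟨(b : ℕ) - 1, by omega⟩).2 (by simp only; omega)
        simp only [B, mem_filter, mem_univ, true_and] at hu
        exact hu.2.2
      rw [if_neg c1]
      by_cases c2 : m + 1 - i < (a : ℕ) ∧ (a : ℕ) ≤ m + 1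
      · rw [dif_pos c2, if_neg (by omega), dif_pos ⟨by omega, by omega⟩]
        exact hgd ⟨(a : ℕ) - 1, by omega⟩ ⟨(b : ℕ) - 1, by omega⟩ (by simp only; omega)
          (by simp only; exact hblock _ (by omega) (by omega))
      rw [dif_neg c2]
      by_cases c3 : (b : ℕ) = m + 1 - i
      · rw [if_pos c3]
        have haB : a ∉ B := fun hh' => by have := (hB a).1 hh'; omega
        have hge : m + 1 - r ≤ (a : ℕ) := by
          rcases mem_insert.1 ha with e | e
          · omega
          · have : (a : ℕ) + r ≠ m := fun e' => hstart _ e' e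
            omega
        simp only [B, mem_filter, mem_univ, true_and, not_and, not_lt] at haB
        refine lt_of_le_of_ne (haB hge ha') fun e => ?_
        refine hgp a ⟨m + 1, hm1⟩ (Fin.lt_def.2 (by simp only; omega)) ?_ e.symm
        have := (hh.2 b).1
        have htw := hL.twin hab ha
        rcases mem_insert.1 ha with e' | e'
        · rw [htw.1]; simp only; omega
        · have hall : ∀ x, (a : ℕ) ≤ x → x ≤ m → ∀ hx : x + 1 < n,
              h a = h ⟨x + 1, hx⟩ := by
            intro x hx1
            induction x, hx1 using Nat.le_induction with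
            | base =>
              intro _ hx
              rw [htw.1]
              exact congrArg h (Fin.ext (by simp only; omega))
            | succ x hx1 ih =>
              intro hx2 hx
              rw [ih (by omega) (by omega)]
              exact (hL.twin (i := ⟨x + 1, by omega⟩) (j := ⟨x + 1 + 1, hx⟩) rfl
                (hlinks _ (by simp only; omega) (by simp only; omega))).1
          rw [hall m ha' le_rfl hm1]
          exact (hh.2 ⟨m + 1, hm1⟩).1
      rw [if_neg c3, dif_neg (fun hc => by omega)]
      rcases mem_insert.1 ha with e | e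
      · omega
      · exact hgd a b hab e
    have hfp : IsProper h f := by
      have hall : ∀ d : ℕ, d ≤ i → IsProper h (carry f (P i) d) → IsProper h f := by
        intro d
        induction d with
        | zero => intro _ hp; rwa [carry_zero] at hp
        | succ d ih =>
          intro hd hp
          refine ih (by omega) fun u v huv hvu e => ?_
          let x : Fin n := ⟨(P i : ℕ) + d, by simp only [P]; omega⟩
          let y : Fin n := ⟨(P i : ℕ) + (d + 1), by simp only [P]; omega⟩
          rw [carry_succ f (P i) d (x := x) (y := y) rfl rfl] at hp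
          have htw : Twin h x y := hL.twin (show (y : ℕ) = x + 1 by simp only [x, y]; omega)
            (hlinks _ (by simp only [x, P]; omega) (by simp only [x, P]; omega))
          set σ := Equiv.swap x y
          have hσ : ∀ w, (carry f (P i) d ∘ σ) (σ w) = carry f (P i) d w := fun w =>
            congrArg (carry f (P i) d) (Equiv.swap_apply_self x y w)
          have hsep : (u = x ∧ v = y) ∨ (σ u < σ v ∧ (σ v : ℕ) < h (σ u)) := by
            rw [Fin.lt_def] at huv
            have hxy : (y : ℕ) = (x : ℕ) + 1 := by simp only [x, y]; omega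
            have hmn : min x y = x := min_eq_left (Fin.le_def.2 (by omega))
            by_cases hux : u = x
            · by_cases hvy : v = y
              · exact Or.inl ⟨hux, hvy⟩
              have : (v : ℕ) ≠ y := fun e' => hvy (Fin.ext e')
              have hu' : (u : ℕ) = x := congrArg Fin.val hux
              have h1 : σ v = v := Equiv.swap_apply_of_ne_of_ne
                (fun e' => by have := congrArg Fin.val e'; omega) hvy
              refine Or.inr ?_
              rw [hux] at hvu ⊢
              rw [show σ x = y from Equiv.swap_apply_left x y, h1, Fin.lt_def, ← htw.1]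
              exact ⟨by omega, hvu⟩
            by_cases huy : u = y
            · have hu' : (u : ℕ) = y := congrArg Fin.val huy
              have h1 : σ v = v := Equiv.swap_apply_of_ne_of_ne
                (fun e' => by have := congrArg Fin.val e'; omega)
                (fun e' => by have := congrArg Fin.val e'; omega)
              refine Or.inr ?_
              rw [huy] at hvu ⊢
              rw [show σ y = x from Equiv.swap_apply_right x y, h1, Fin.lt_def, htw.1]
              exact ⟨by omega, hvu⟩
            have h0 : σ u = u := Equiv.swap_apply_of_ne_of_ne hux huy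
            have hu1 : (u : ℕ) ≠ x := fun e' => hux (Fin.ext e')
            refine Or.inr ?_
            rw [h0]
            by_cases hvx : v = x
            · have hv' : (v : ℕ) = x := congrArg Fin.val hvx
              rw [hvx] at hvu ⊢
              rw [show σ x = y from Equiv.swap_apply_left x y, Fin.lt_def]
              exact ⟨by omega, (htw.2 u (by rw [hmn, Fin.lt_def]; omega)).1 hvu⟩
            by_cases hvy : v = y
            · have hv' : (v : ℕ) = y := congrArg Fin.val hvy
              rw [hvy] at hvu ⊢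
              rw [show σ y = x from Equiv.swap_apply_right x y, Fin.lt_def]
              exact ⟨by omega, (htw.2 u (by rw [hmn, Fin.lt_def]; omega)).2 hvu⟩
            rw [show σ v = v from Equiv.swap_apply_of_ne_of_ne hvx hvy]
            exact ⟨Fin.lt_def.2 huv, hvu⟩
          rcases hsep with ⟨h1, h2⟩ | ⟨h1, h2⟩
          · rw [h1, h2] at e
            refine hp x y (Fin.lt_def.2 (by simp only [x, y]; omega)) ?_ ?_
            · rw [htw.1]; exact (hh.2 y).1
            · simp only [Function.comp_apply, σ, Equiv.swap_apply_left, Equiv.swap_apply_right]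
              exact e.symm
          · exact hp _ _ h1 h2 (by rw [hσ, hσ]; exact e)
      exact hall i le_rfl (by rw [hcarry]; exact hgp)
    exact ⟨(i, f), mem_product.2 ⟨Finset.mem_range.2 (by omega), mem_colourings.2 ⟨hfp, hdf⟩⟩, hcarry⟩
  · intro z hz
    obtain ⟨hzi, hzf⟩ := mem_product.1 hz
    obtain ⟨-, h2, h3⟩ := hspec _ hzf _ (Nat.lt_succ_iff.1 (Finset.mem_range.1 hzi))
    rw [scal_X_pow, wt, wt, h2, h3, ← mul_assoc, ← map_mul, ← pow_add, add_comm z.1]

theorem content_step (L₀ : Finset ℕ) {m : ℕ} (hm : m + 1 < n) (hlt : ∀ x ∈ L₀, x < m) :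
    content n (insert m L₀) = content n L₀ * qint (rank L₀ m + 1) := by
  have hm0 : m ∉ L₀ := fun h => lt_irrefl m (hlt m h)
  have hlow : ∀ i ≤ m, rank (insert m L₀) i = rank L₀ i := fun i hi =>
    rank_congr i fun x hx => by simp [show x ≠ m by omega]
  have hhigh : ∀ i, m + 1 < i → rank (insert m L₀) i = rank L₀ i := by
    intro i hi
    obtain ⟨j, rfl⟩ : ∃ j, i = j + 1 := ⟨i - 1, by omega⟩
    have h1 : j ∉ insert m L₀ := by
      simp only [mem_insert, not_or]
      exact ⟨by omega, fun h => by have := hlt j h; omega⟩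
    have h2 : j ∉ L₀ := fun h => h1 (mem_insert_of_mem h)
    simp [rank, h1, h2]
  have hmem : m + 1 ∈ range n := Finset.mem_range.2 hm
  rw [content, content, ← mul_prod_erase _ _ hmem, ← mul_prod_erase _ _ hmem]
  have h1 : rank (insert m L₀) (m + 1) = rank L₀ m + 1 := by simp [rank, hlow m le_rfl]
  have h2 : rank L₀ (m + 1) = 1 := by simp [rank, hm0]
  have hrest : ∀ i ∈ (range n).erase (m + 1), qint (rank (insert m L₀) i) = qint (rank L₀ i) := by
    intro i hi
    have hne := (mem_erase.1 hi).1
    rcases Nat.lt_or_ge i (m + 1) with hi' | hi'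
    · rw [hlow i (by omega)]
    · rw [hhigh i (by omega)]
  rw [h1, h2, prod_congr rfl hrest]
  simp [qint, mul_comm]

/-- The chromatic function is the content of the links times its restricted version. -/
theorem chi_eq_content_mul {h : Fin n → ℕ} (hh : IsHess n h) {L : Finset ℕ} (hL : IsLinks h L) :
    chi N h = scal N (content n L) * chiL N h L := by
  induction L using Finset.induction_on_max with
  | empty => rw [content_empty, map_one, one_mul, chiL_empty]
  | insert m L₀ hlt ih =>
    obtain ⟨hm, -⟩ := hL m (mem_insert_self m L₀)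
    rw [ih (hL.mono (subset_insert _ _)), chiL_step hh hL hlt, content_step L₀ hm hlt, map_mul,
      mul_assoc]

/-- Finer links: a factor with coefficients in `ℕ[q]`. -/
theorem chiL_of_factor {h : Fin n → ℕ} (hh : IsHess n h) {L L' : Finset ℕ} (hL : IsLinks h L)
    (hL' : IsLinks h L') {Q : ℕ[X]} (hQ : content n L' = Q * content n L) :
    chiL N h L = scal N Q * chiL N h L' := by
  have hne : scal N (content n L) ≠ 0 := by
    rw [← map_zero (scal N)]
    exact fun e => content_ne_zero n L (scal_injective N e)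
  refine mul_left_cancel₀ hne ?_
  rw [← chi_eq_content_mul hh hL, chi_eq_content_mul hh hL', hQ, map_mul]
  ring

end Vale.Agent.P066

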